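import Vale.Agent.P120.Defs

/-!
# P120: elementary bounds for measures with `n`-growth and for the Riesz kernel
-/

namespace Vale.Agent.P120

open MeasureTheory Set Filter
open scoped Topology

noncomputable section

variable {E : Type*} [NormedAddCommGroup E] [InnerProductSpace ℝ E] [MeasurableSpace E]
  [BorelSpace E]

/-- The half open annulus. -/
def annulus (z : E) (a b : ℝ) : Set E := {y | a ≤ dist z y ∧ dist z y < b}

omit [InnerProductSpace ℝ E] in
lemma measurableSet_annulus (z : E) (a b : ℝ) : MeasurableSet (annulus z a b) :=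
  have h : Measurable fun y => dist z y := (continuous_const.dist continuous_id).measurable
  MeasurableSet.inter (measurableSet_le measurable_const h) (measurableSet_lt h measurable_const)

/-- The part of the Riesz transform of `1` at `z` coming from an annulus. -/
def win (n : ℕ) (μ : Measure E) (z : E) (a b : ℝ) : E :=
  ∫ y in annulus z a b, kernel n (z - y) ∂μ

/-- All windows between `θ s` and `s / 4`, at support points near `z`, are at most `A`. -/
def Good (n : ℕ) (μ : Measure E) (z : E) (s A θ : ℝ) : Prop :=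
  ∀ z' ∈ μ.support, dist z' z ≤ s / 2 → ∀ a b : ℝ, θ * s ≤ a → a < b → b ≤ s / 4 →
    ‖win n μ z' a b‖ ≤ A

omit [MeasurableSpace E] [BorelSpace E] in
lemma norm_kernel_le (n : ℕ) (z : E) : ‖kernel n z‖ ≤ (‖z‖ ^ n)⁻¹ := by
  rw [kernel, norm_smul, norm_inv, norm_pow, norm_norm]
  rcases eq_or_ne ‖z‖ 0 with h | h
  · rw [h, mul_zero]; positivity
  · rw [pow_succ, mul_inv, mul_assoc, inv_mul_cancel₀ h, mul_one]

/-- The constant in the smoothness bound for the kernel. -/
def kerConst (n : ℕ) : ℝ := 2 ^ (n + 1) + (n + 1) * 4 ^ (n + 1)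

omit [MeasurableSpace E] [BorelSpace E] in
lemma norm_kernel_sub_le (n : ℕ) {u v : E} (hv : v ≠ 0) (h : ‖u - v‖ ≤ ‖v‖ / 2) :
    ‖kernel n u - kernel n v‖ ≤ kerConst n * ‖u - v‖ / ‖v‖ ^ (n + 1) := by
  have hv0 : 0 < ‖v‖ := norm_pos_iff.2 hv
  have htri := abs_norm_sub_norm_le u v
  rw [abs_le] at htri
  have hu1 : ‖v‖ / 2 ≤ ‖u‖ := by linarith
  have hu2 : ‖u‖ ≤ 2 * ‖v‖ := by linarith
  have hu0 : 0 < ‖u‖ := by linarith
  set p := ‖u‖ ^ (n + 1)
  set q := ‖v‖ ^ (n + 1)
  have hp : 0 < p := by positivity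
  have hq : 0 < q := by positivity
  have hqp : q ≤ 2 ^ (n + 1) * p := by
    rw [← mul_pow]; exact pow_le_pow_left₀ hv0.le (by linarith) _
  have hdiff : |q - p| ≤ ‖u - v‖ * (n + 1) * (2 * ‖v‖) ^ n := by
    have h1 := abs_pow_sub_pow_le (a := ‖v‖) (b := ‖u‖) (n := n + 1)
    refine h1.trans ?_
    rw [Nat.add_sub_cancel, abs_of_pos hv0, abs_of_pos hu0, Nat.cast_add, Nat.cast_one]
    refine mul_le_mul (mul_le_mul_of_nonneg_right ?_ (by positivity)) ?_ (by positivity)
      (by positivity)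
    · rw [norm_sub_rev]; exact abs_norm_sub_norm_le v u
    · exact pow_le_pow_left₀ (le_max_of_le_left hv0.le) (max_le (by linarith) hu2) _
  have e : kernel n u - kernel n v = p⁻¹ • (u - v) + (p⁻¹ - q⁻¹) • v := by
    simp only [kernel, smul_sub, sub_smul]; abel
  have h1 : p⁻¹ ≤ 2 ^ (n + 1) * q⁻¹ := by
    rw [← div_eq_mul_inv, le_div_iff₀ hq, inv_mul_le_iff₀ hp, mul_comm p]
    exact hqp
  have h2 : |p⁻¹ - q⁻¹| * ‖v‖ ≤ (n + 1) * 4 ^ (n + 1) * ‖u - v‖ * q⁻¹ := by
    rw [inv_sub_inv hp.ne' hq.ne', abs_div, abs_of_pos (mul_pos hp hq), div_eq_mul_inv, mul_inv]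
    calc |q - p| * (p⁻¹ * q⁻¹) * ‖v‖
        ≤ ‖u - v‖ * (n + 1) * (2 * ‖v‖) ^ n * (2 ^ (n + 1) * q⁻¹ * q⁻¹) * ‖v‖ := by gcongr
      _ = ‖u - v‖ * (n + 1) * (2 ^ n * 2 ^ (n + 1)) * q⁻¹ * (q * q⁻¹) := by
          simp only [q, pow_succ, mul_pow]; ring
      _ ≤ (n + 1) * 4 ^ (n + 1) * ‖u - v‖ * q⁻¹ := by
          have h4 : (2 : ℝ) ^ n * 2 ^ (n + 1) ≤ 4 ^ (n + 1) := by
            rw [show (4 : ℝ) = 2 * 2 by norm_num, mul_pow]
            exact mul_le_mul_of_nonneg_right (pow_le_pow_right₀ one_le_two (by omega))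
              (by positivity)
          rw [mul_inv_cancel₀ hq.ne', mul_one]
          calc ‖u - v‖ * (n + 1) * (2 ^ n * 2 ^ (n + 1)) * q⁻¹
              ≤ ‖u - v‖ * (n + 1) * 4 ^ (n + 1) * q⁻¹ := by gcongr
            _ = _ := by ring
  rw [e, div_eq_mul_inv, kerConst]
  refine (norm_add_le _ _).trans ?_
  rw [norm_smul, norm_smul, Real.norm_eq_abs, Real.norm_eq_abs, abs_of_pos (inv_pos.2 hp)]
  nlinarith [mul_le_mul_of_nonneg_right h1 (norm_nonneg (u - v))]

section Growth

variable {ν : Measure E} [IsFiniteMeasure ν] {n : ℕ} {K : ℝ}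

lemma integrableOn_inv_pow (z : E) {t : ℝ} (ht : 0 < t) (k : ℕ) {s : Set E} (hs : MeasurableSet s)
    (hsub : ∀ y ∈ s, t ≤ dist z y) : IntegrableOn (fun y => (dist z y ^ k)⁻¹) s ν := by
  refine Integrable.of_bound (C := (t ^ k)⁻¹)
    (Measurable.aestronglyMeasurable (by fun_prop)) ?_
  refine (ae_restrict_iff' hs).2 (Eventually.of_forall fun y hy => ?_)
  rw [norm_inv, norm_pow, Real.norm_eq_abs, abs_of_nonneg dist_nonneg]
  exact inv_anti₀ (by positivity) (pow_le_pow_left₀ ht.le (hsub y hy) _)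

lemma annulus_integral_le (hν : ∀ z t, 0 < t → ν.real (Metric.ball z t) ≤ K * t ^ n)
    (z : E) {a b : ℝ} (ha : 0 < a) (hb : 0 < b) (k : ℕ) :
    ∫ y in annulus z a b, (dist z y ^ k)⁻¹ ∂ν ≤ K * b ^ n * (a ^ k)⁻¹ := by
  have hsub : annulus z a b ⊆ Metric.ball z b := fun y hy => by
    simpa [Metric.mem_ball, dist_comm] using hy.2
  calc ∫ y in annulus z a b, (dist z y ^ k)⁻¹ ∂ν
      ≤ ∫ _ in annulus z a b, (a ^ k)⁻¹ ∂ν :=
        setIntegral_mono_on (integrableOn_inv_pow z ha k (measurableSet_annulus z a b)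
          fun y hy => hy.1) (integrable_const _).integrableOn (measurableSet_annulus z a b)
          fun y hy => inv_anti₀ (by positivity) (pow_le_pow_left₀ ha.le hy.1 _)
    _ = ν.real (annulus z a b) * (a ^ k)⁻¹ := by rw [setIntegral_const, smul_eq_mul]
    _ ≤ _ := mul_le_mul_of_nonneg_right ((measureReal_mono hsub).trans (hν z b hb))
        (by positivity)

lemma inner_integral_le (hn : 1 ≤ n) (hν : ∀ z t, 0 < t → ν.real (Metric.ball z t) ≤ K * t ^ n)
    (hK : 0 ≤ K) (z : E) {a : ℝ} (ha : 0 < a) : ∀ {b : ℝ}, 0 < b →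
    ∫ y in annulus z a b, (dist z y ^ (n - 1))⁻¹ ∂ν ≤ 2 ^ n * K * b := by
  suffices h : ∀ J : ℕ, ∀ b : ℝ, 0 < b → b ≤ 2 ^ J * a →
      ∫ y in annulus z a b, (dist z y ^ (n - 1))⁻¹ ∂ν ≤ 2 ^ n * K * b by
    intro b hb
    obtain ⟨J, hJ⟩ := pow_unbounded_of_one_lt (b / a) (one_lt_two (α := ℝ))
    exact h J b hb ((div_le_iff₀ ha).1 hJ.le)
  intro J
  induction J with
  | zero =>
    intro b hb hba
    have : annulus z a b = ∅ := by
      ext y; simp only [annulus, mem_setOf_eq, mem_empty_iff_false, iff_false, not_and]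
      intro h; linarith
    rw [this, setIntegral_empty]
    positivity
  | succ J ih =>
    intro b hb hba
    set f := fun y : E => (dist z y ^ (n - 1))⁻¹ with hf
    have hint : ∀ c d : ℝ, a ≤ c → IntegrableOn f (annulus z c d) ν := fun c d hc =>
      integrableOn_inv_pow z (ha.trans_le hc) _ (measurableSet_annulus z c d) fun y hy => hy.1
    set c := max a (b / 2) with hc
    have hsub : annulus z a b ⊆ annulus z a (b / 2) ∪ annulus z c b := fun y hy => by
      by_cases h : dist z y < b / 2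
      · exact Or.inl ⟨hy.1, h⟩
      · exact Or.inr ⟨max_le hy.1 (not_lt.1 h), hy.2⟩
    have hdis : Disjoint (annulus z a (b / 2)) (annulus z c b) :=
      Set.disjoint_left.2 fun y h1 h2 => absurd (le_trans (le_max_right _ _) h2.1) (not_le.2 h1.2)
    calc ∫ y in annulus z a b, f y ∂ν
        ≤ ∫ y in annulus z a (b / 2) ∪ annulus z c b, f y ∂ν := by
          refine setIntegral_mono_set ((hint a _ le_rfl).union (hint c b (le_max_left _ _))) ?_
            hsub.eventuallyLE
          exact Eventually.of_forall fun y => by simp only [hf, Pi.zero_apply]; positivity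
      _ = (∫ y in annulus z a (b / 2), f y ∂ν) + ∫ y in annulus z c b, f y ∂ν :=
          setIntegral_union hdis (measurableSet_annulus _ _ _) (hint a _ le_rfl)
            (hint c b (le_max_left _ _))
      _ ≤ 2 ^ n * K * (b / 2) + K * b ^ n * (c ^ (n - 1))⁻¹ :=
          add_le_add (ih _ (by linarith) (by rw [pow_succ] at hba; linarith))
            (annulus_integral_le hν z (lt_max_of_lt_left ha) hb _)
      _ ≤ 2 ^ n * K * (b / 2) + K * b ^ n * ((b / 2) ^ (n - 1))⁻¹ := by
          gcongr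
          exact le_max_right _ _
      _ = _ := by
          obtain ⟨m, rfl⟩ : ∃ m, n = m + 1 := ⟨n - 1, by omega⟩
          rw [Nat.add_sub_cancel, div_pow, inv_div, pow_succ, pow_succ]
          field_simp
          ring

lemma outer_integral_le (hν : ∀ z t, 0 < t → ν.real (Metric.ball z t) ≤ K * t ^ n)
    (hK : 0 ≤ K) (z : E) {t : ℝ} (ht : 0 < t) :
    ∫ y in {y | t ≤ dist z y}, (dist z y ^ (n + 1))⁻¹ ∂ν ≤ 2 ^ (n + 1) * K / t := by
  set f := fun y : E => (dist z y ^ (n + 1))⁻¹ with hf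
  have hm : ∀ s : ℝ, MeasurableSet {y | s ≤ dist z y} := fun s =>
    measurableSet_le measurable_const (by fun_prop)
  have hint : ∀ s, 0 < s → IntegrableOn f {y | s ≤ dist z y} ν := fun s hs =>
    integrableOn_inv_pow z hs _ (hm s) fun y hy => hy
  have key : ∀ J : ℕ, ∀ s, 0 < s → ∫ y in {y | s ≤ dist z y}, f y ∂ν ≤
      2 ^ (n + 1) * K / s + ν.real univ * ((2 ^ J * s) ^ (n + 1))⁻¹ := by
    intro J
    induction J with
    | zero =>
      intro s hs
      calc ∫ y in {y | s ≤ dist z y}, f y ∂ν ≤ ∫ _ in {y | s ≤ dist z y}, (s ^ (n + 1))⁻¹ ∂ν :=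
            setIntegral_mono_on (hint s hs) (integrable_const _).integrableOn (hm s)
              fun y hy => inv_anti₀ (by positivity) (pow_le_pow_left₀ hs.le hy _)
        _ = ν.real {y | s ≤ dist z y} * (s ^ (n + 1))⁻¹ := by rw [setIntegral_const, smul_eq_mul]
        _ ≤ ν.real univ * (s ^ (n + 1))⁻¹ :=
            mul_le_mul_of_nonneg_right (measureReal_mono (subset_univ _)) (by positivity)
        _ ≤ _ := by
            rw [pow_zero, one_mul]
            linarith [show 0 ≤ 2 ^ (n + 1) * K / s by positivity]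
    | succ J ih =>
      intro s hs
      have h2 : (0 : ℝ) < 2 * s := by positivity
      have hu : {y | s ≤ dist z y} = annulus z s (2 * s) ∪ {y | 2 * s ≤ dist z y} := by
        ext y
        simp only [annulus, mem_union, mem_setOf_eq]
        constructor
        · intro h; by_cases h' : dist z y < 2 * s
          · exact Or.inl ⟨h, h'⟩
          · exact Or.inr (not_lt.1 h')
        · rintro (h | h)
          · exact h.1
          · linarith
      have hdis : Disjoint (annulus z s (2 * s)) {y | 2 * s ≤ dist z y} :=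
        Set.disjoint_left.2 fun y h1 h2 => absurd h2 (not_le.2 h1.2)
      rw [hu, setIntegral_union hdis (hm _)
        (integrableOn_inv_pow z hs _ (measurableSet_annulus _ _ _) fun y hy => hy.1) (hint _ h2)]
      refine (add_le_add (annulus_integral_le hν z hs h2 (n + 1)) (ih _ h2)).trans (le_of_eq ?_)
      rw [show (2 : ℝ) ^ J * (2 * s) = 2 ^ (J + 1) * s by ring]
      field_simp
      ring
  have hlim : Tendsto (fun J : ℕ => 2 ^ (n + 1) * K / t +
      ν.real univ * ((2 ^ J * t) ^ (n + 1))⁻¹) atTop (𝓝 (2 ^ (n + 1) * K / t)) := by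
    have h1 : Tendsto (fun J : ℕ => ((2 : ℝ) ^ J * t) ^ (n + 1)) atTop atTop :=
      (tendsto_pow_atTop (by omega : n + 1 ≠ 0)).comp
        ((tendsto_pow_atTop_atTop_of_one_lt one_lt_two).atTop_mul_const ht)
    simpa using (tendsto_inv_atTop_zero.comp h1).const_mul (ν.real univ) |>.const_add
      (2 ^ (n + 1) * K / t)
  exact ge_of_tendsto' hlim fun J => key J t ht

end Growth

/-- The two-sided bound of AD regularity at radii up to `R`. -/
def LocalAD (μ : Measure E) (n : ℕ) (C R : ℝ) : Prop :=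
  1 ≤ C ∧ 0 < R ∧ ∀ x ∈ μ.support, ∀ t, 0 < t → t ≤ R →
    ENNReal.ofReal (C⁻¹ * t ^ n) ≤ μ (Metric.ball x t) ∧
      μ (Metric.ball x t) ≤ ENNReal.ofReal (C * t ^ n)

section LocalAD

variable [FiniteDimensional ℝ E] {μ : Measure E} {n : ℕ} {C R : ℝ}

lemma LocalAD.ne_top (h : LocalAD μ n C R) {x : E} (hx : x ∈ μ.support) {t : ℝ} (ht : 0 < t)
    (htR : t ≤ R) : μ (Metric.ball x t) ≠ ⊤ :=
  ne_top_of_le_ne_top ENNReal.ofReal_ne_top (h.2.2 x hx t ht htR).2

lemma LocalAD.le_real (h : LocalAD μ n C R) {x : E} (hx : x ∈ μ.support) {t : ℝ} (ht : 0 < t)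
    (htR : t ≤ R) : C⁻¹ * t ^ n ≤ μ.real (Metric.ball x t) := by
  have := ENNReal.toReal_mono (h.ne_top hx ht htR) (h.2.2 x hx t ht htR).1
  rwa [ENNReal.toReal_ofReal (mul_nonneg (inv_nonneg.2 (zero_le_one.trans h.1))
    (by positivity))] at this

lemma LocalAD.real_le (h : LocalAD μ n C R) {x : E} (hx : x ∈ μ.support) {t : ℝ} (ht : 0 < t)
    (htR : t ≤ R) : μ.real (Metric.ball x t) ≤ C * t ^ n := by
  have := ENNReal.toReal_mono ENNReal.ofReal_ne_top (h.2.2 x hx t ht htR).2
  rwa [ENNReal.toReal_ofReal (mul_nonneg (zero_le_one.trans h.1) (by positivity))] at this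

lemma LocalAD.ball_le (h : LocalAD μ n C R) (z : E) {t : ℝ} (ht : 0 < t) (htR : 2 * t ≤ R) :
    μ.real (Metric.ball z t) ≤ C * 2 ^ n * t ^ n := by
  have hC : 0 ≤ C := zero_le_one.trans h.1
  by_cases hne : (Metric.ball z t ∩ μ.support).Nonempty
  · obtain ⟨y, hy, hyS⟩ := hne
    have hsub : Metric.ball z t ⊆ Metric.ball y (2 * t) := by
      intro w hw
      rw [Metric.mem_ball] at hw hy ⊢
      linarith [dist_triangle_right w y z]
    refine (measureReal_mono hsub (h.ne_top hyS (by linarith) htR)).trans ?_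
    exact (h.real_le hyS (by linarith) htR).trans (le_of_eq (by rw [mul_pow, mul_assoc]))
  · have : μ (Metric.ball z t) = 0 := by
      by_contra h0
      exact hne (Measure.nonempty_inter_support_of_pos (pos_iff_ne_zero.2 h0))
    rw [measureReal_def, this, ENNReal.toReal_zero]
    positivity

lemma LocalAD.growth (h : LocalAD μ n C R) {x : E} (hx : x ∈ μ.support) (z : E) {t : ℝ}
    (ht : 0 < t) : (μ.restrict (Metric.ball x R)).real (Metric.ball z t) ≤ C * 2 ^ n * t ^ n := by
  have hC : 0 ≤ C := zero_le_one.trans h.1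
  rw [measureReal_restrict_apply measurableSet_ball]
  have hfin := h.ne_top hx h.2.1 le_rfl
  by_cases h2 : 2 * t ≤ R
  · refine (measureReal_mono inter_subset_left ?_).trans (h.ball_le z ht h2)
    by_cases hne : (Metric.ball z t ∩ μ.support).Nonempty
    · obtain ⟨y, hy, hyS⟩ := hne
      refine ne_top_of_le_ne_top (h.ne_top hyS (by linarith) h2) (measure_mono fun w hw => ?_)
      rw [Metric.mem_ball] at hw hy ⊢
      linarith [dist_triangle_right w y z]
    · intro htop
      exact hne (Measure.nonempty_inter_support_of_pos (htop ▸ ENNReal.zero_lt_top))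
  · refine (measureReal_mono inter_subset_right hfin).trans ((h.real_le hx h.2.1 le_rfl).trans ?_)
    rw [mul_assoc, ← mul_pow]
    exact mul_le_mul_of_nonneg_left (pow_le_pow_left₀ h.2.1.le (by linarith) _) hC

end LocalAD

end

end Vale.Agent.P120
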