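import Mathlib

/-!
# P120: AD-regular measures, the Riesz transform, flat balls

Definitions used by the hand-in. The ambient space is a finite-dimensional real inner product
space.
-/

namespace Vale.Agent.P120

open MeasureTheory Set

variable {E : Type*} [NormedAddCommGroup E] [InnerProductSpace ℝ E] [MeasurableSpace E]
  [BorelSpace E]

/-- `n`-AD regularity: `C⁻¹ r^n ≤ μ (B(x, r)) ≤ C r^n` for `x` in the support and
`0 < r ≤ diam` of the support (the diameter may be infinite). -/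
def ADRegular (n : ℕ) (μ : Measure E) : Prop :=
  ∃ C : ℝ, 1 ≤ C ∧ ∀ x ∈ μ.support, ∀ r : ℝ, 0 < r → ENNReal.ofReal r ≤ Metric.ediam μ.support →
    ENNReal.ofReal (C⁻¹ * r ^ n) ≤ μ (Metric.ball x r) ∧
      μ (Metric.ball x r) ≤ ENNReal.ofReal (C * r ^ n)

/-- The Riesz kernel `z / |z|^(n+1)`. -/
noncomputable def kernel (n : ℕ) (z : E) : E := (‖z‖ ^ (n + 1))⁻¹ • z

/-- The truncated Riesz transform of `f`. -/
noncomputable def riesz (n : ℕ) (μ : Measure E) (ε : ℝ) (f : E → ℝ) (x : E) : E :=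
  ∫ y in {y | ε < dist x y}, f y • kernel n (x - y) ∂μ

/-- `L²(μ)` boundedness of the truncated Riesz transforms, uniformly in the truncation. -/
def RieszBounded (n : ℕ) (μ : Measure E) : Prop :=
  ∃ CR : ℝ, ∀ f : E → ℝ, MemLp f 2 μ → ∀ ε : ℝ, 0 < ε →
    (∀ᵐ x ∂μ, IntegrableOn (fun y => f y • kernel n (x - y)) {y | ε < dist x y} μ) ∧
      eLpNorm (riesz n μ ε f) 2 μ ≤ ENNReal.ofReal CR * eLpNorm f 2 μ

/-- Inside the closed ball of radius `r` around `x`, the set `S` lies within `ε r` of the affine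
plane `x + W`, and conversely the plane lies within `ε r` of `S`. -/
def BilaterallyFlat (S : Set E) (x : E) (r ε : ℝ) (W : Submodule ℝ E) : Prop :=
  (∀ y ∈ S, dist y x ≤ r → ∃ w ∈ W, dist y (x + w) ≤ ε * r) ∧
    ∀ w ∈ W, ‖w‖ ≤ r → ∃ y ∈ S, dist y (x + w) ≤ ε * r

/-- Uniform disconnectedness: for some `δ`, no chain in `S` with steps at most `δ r` leads from a
point `x` of `S` to distance `r` from `x`, for radii up to the diameter. -/
def UniformlyDisconnected (S : Set E) : Prop :=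
  ∃ δ : ℝ, 0 < δ ∧ ∀ x ∈ S, ∀ r : ℝ, 0 < r → ENNReal.ofReal r ≤ Metric.ediam S →
    ∀ (N : ℕ) (y : ℕ → E), y 0 = x → (∀ i ≤ N, y i ∈ S) →
      (∀ i < N, dist (y i) (y (i + 1)) ≤ δ * r) → dist (y N) x < r

end Vale.Agent.P120
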