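import Vale.Agent.P120.Touch

/-!
# P120: from bounded windows to a bilaterally flat ball

A hole of a support lying near an `(m + 1)`-plane gives a touching point, at which the support
lies near an `m`-plane. Below dimension `n` this is impossible for an `n`-regular measure.
-/

namespace Vale.Agent.P120

open MeasureTheory Set Filter
open scoped Topology RealInnerProductSpace

noncomputable section

variable {E : Type*} [NormedAddCommGroup E] [InnerProductSpace ℝ E] [MeasurableSpace E]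
  [BorelSpace E] [FiniteDimensional ℝ E] {n : ℕ} {μ : Measure E}

/-- Inside the closed ball of radius `s` around `x`, the set `S` is within `δ s` of `x + W`. -/
def Flat (S : Set E) (x : E) (s δ : ℝ) (W : Submodule ℝ E) : Prop :=
  ∀ y ∈ S, dist y x ≤ s → ∃ w ∈ W, ‖y - x - w‖ ≤ δ * s

/-- All windows in `[a, b]` at support points within `s` of `x` are at most `A`. -/
def WinBdd (n : ℕ) (μ : Measure E) (x : E) (s a b A : ℝ) : Prop :=
  ∀ y ∈ μ.support, dist y x ≤ s → ∀ a' b', a ≤ a' → a' < b' → b' ≤ b → ‖win n μ y a' b'‖ ≤ A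

/-- The grid point with integer coordinates `j`. -/
def gridPt {k : ℕ} {W : Submodule ℝ E} (b : OrthonormalBasis (Fin k) ℝ W) (h : ℝ) (j : Fin k → ℤ) :
    W :=
  ∑ i, (h * (j i : ℝ)) • b i

omit [MeasurableSpace E] [BorelSpace E] [FiniteDimensional ℝ E] in
lemma inner_gridPt {k : ℕ} {W : Submodule ℝ E} (b : OrthonormalBasis (Fin k) ℝ W) (h : ℝ)
    (j : Fin k → ℤ) (i : Fin k) : ⟪b i, gridPt b h j⟫ = h * j i :=
  b.orthonormal.inner_right_fintype _ i

omit [MeasurableSpace E] [BorelSpace E] [FiniteDimensional ℝ E] in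
lemma norm_gridPt_le {k : ℕ} {W : Submodule ℝ E} (b : OrthonormalBasis (Fin k) ℝ W) {h L : ℝ}
    (hh : 0 ≤ h) (j : Fin k → ℤ) (hj : ∀ i, |(j i : ℝ)| ≤ L) : ‖gridPt b h j‖ ≤ k * (h * L) := by
  refine (norm_sum_le _ _).trans ((Finset.sum_le_sum fun i _ => ?_).trans
    (le_of_eq (by simp : ∑ _i : Fin k, h * L = k * (h * L))))
  rw [norm_smul, b.orthonormal.1 i, mul_one, Real.norm_eq_abs, abs_mul, abs_of_nonneg hh]
  exact mul_le_mul_of_nonneg_left (hj i) hh

omit [MeasurableSpace E] [BorelSpace E] [FiniteDimensional ℝ E] in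
lemma le_norm_gridPt_sub {k : ℕ} {W : Submodule ℝ E} (b : OrthonormalBasis (Fin k) ℝ W) {h : ℝ}
    (hh : 0 ≤ h) {j j' : Fin k → ℤ} (hne : j ≠ j') : h ≤ ‖gridPt b h j - gridPt b h j'‖ := by
  obtain ⟨i, hi⟩ := Function.ne_iff.1 hne
  have h1 := abs_real_inner_le_norm (b i) (gridPt b h j - gridPt b h j')
  rw [b.orthonormal.1 i, one_mul, inner_sub_right, inner_gridPt, inner_gridPt, ← mul_sub,
    abs_mul, abs_of_nonneg hh] at h1
  refine le_trans (le_mul_of_one_le_right hh ?_) h1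
  exact_mod_cast Int.one_le_abs (sub_ne_zero.2 hi)

/-- An `n`-regular set cannot fill a plane of dimension above `n`. -/
theorem exists_hole_unif {C : ℝ} (hC : 1 ≤ C) (m : ℕ) (hnm : n < m) :
    ∃ η : ℝ, 0 < η ∧ η ≤ 1 ∧ ∀ μ : Measure E, ∀ x ∈ μ.support, ∀ s, LocalAD μ n C s →
      ∀ W : Submodule ℝ E, Module.finrank ℝ W = m →
        ∃ p ∈ W, ‖p‖ ≤ s / 4 ∧ ∀ y ∈ μ.support, η * s ≤ dist y (x + p) := by
  have hC0 : 0 < C := lt_of_lt_of_le one_pos hC
  obtain ⟨K, hK⟩ := exists_nat_gt (C ^ 2 * (24 * (m : ℝ)) ^ n)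
  have hm0 : (1 : ℝ) ≤ m := by exact_mod_cast Nat.one_le_iff_ne_zero.2 (by omega)
  have hK0 : (1 : ℝ) ≤ K := by
    have : 0 < K := by
      have : (0 : ℝ) < K := lt_of_le_of_lt (by positivity) hK
      exact_mod_cast this
    exact_mod_cast this
  refine ⟨1 / (16 * m * K + 8), by positivity, (div_le_one (by positivity)).2 (by nlinarith),
    fun μ x hx s had W hW => ?_⟩
  set η := 1 / (16 * (m : ℝ) * K + 8) with hη
  have hη0 : 0 < η := by positivity
  have hs : 0 < s := had.2.1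
  by_contra hcon
  simp only [not_exists, not_and, not_forall, not_le] at hcon
  set b := (stdOrthonormalBasis ℝ W).reindex (finCongr hW)
  set h := 4 * η * s with hhdef
  have hh : 0 < h := by positivity
  set J := Fintype.piFinset fun _ : Fin m => Finset.Icc (0 : ℤ) ((K : ℤ) - 1)
  have hcardJ : J.card = K ^ m := by simp [J, Fintype.card_piFinset]
  have hJ : ∀ j ∈ J, ‖(gridPt b h j : E)‖ ≤ s / 4 ∧ ‖(gridPt b h j : E)‖ + 2 * η * s ≤ s := by
    intro j hj
    have hle : ∀ i, |(j i : ℝ)| ≤ K := fun i => by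
      have := Finset.mem_Icc.1 (Fintype.mem_piFinset.1 hj i)
      rw [abs_le]
      constructor
      · have : (-(K : ℤ)) ≤ j i := by omega
        exact_mod_cast this
      · have : j i ≤ (K : ℤ) := by omega
        exact_mod_cast this
    have h1 : ‖(gridPt b h j : E)‖ ≤ m * (h * K) := norm_gridPt_le b hh.le j hle
    have h2 : η * (16 * m * K + 8) = 1 := by rw [hη]; field_simp
    have h3 : (m : ℝ) * (h * K) + 2 * η * s = η * (16 * m * K + 8) * (s / 4) := by
      rw [hhdef]; ring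
    rw [h2, one_mul] at h3
    have : 0 ≤ 2 * η * s := by positivity
    exact ⟨by linarith, by linarith⟩
  have hy : ∀ j ∈ J, ∃ y ∈ μ.support, dist y (x + (gridPt b h j : E)) < η * s := fun j hj => by
    obtain ⟨y, hyS, hyd⟩ := hcon _ (gridPt b h j).2 (hJ j hj).1
    exact ⟨y, hyS, hyd⟩
  choose! yj hyS hyd using hy
  have hsub : ∀ j ∈ J, Metric.ball (yj j) (η * s) ⊆ Metric.ball x s := fun j hj w hw => by
    rw [Metric.mem_ball] at hw ⊢
    have h1 := dist_triangle4 w (yj j) (x + (gridPt b h j : E)) x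
    rw [show dist (x + (gridPt b h j : E)) x = ‖(gridPt b h j : E)‖ by
      rw [dist_eq_norm, add_sub_cancel_left]] at h1
    linarith [(hJ j hj).2, hyd j hj]
  have hdis : (↑J : Set (Fin m → ℤ)).PairwiseDisjoint fun j => Metric.ball (yj j) (η * s) := by
    intro j hj j' hj' hne
    refine Metric.ball_disjoint_ball ?_
    have h0 : h ≤ dist (gridPt b h j : E) (gridPt b h j' : E) := by
      rw [dist_eq_norm]; exact le_norm_gridPt_sub b hh.le hne
    rw [← dist_add_left x] at h0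
    have h1 := dist_triangle4 (x + (gridPt b h j : E)) (yj j) (yj j') (x + (gridPt b h j' : E))
    rw [dist_comm (x + _) (yj j)] at h1
    linarith [hyd j hj, hyd j' hj']
  have hfin := had.ne_top hx hs le_rfl
  have hle : (J.card : ℝ) * (C⁻¹ * (η * s) ^ n) ≤ C * s ^ n := by
    calc (J.card : ℝ) * (C⁻¹ * (η * s) ^ n) = ∑ _ ∈ J, C⁻¹ * (η * s) ^ n := by simp
      _ ≤ ∑ j ∈ J, μ.real (Metric.ball (yj j) (η * s)) := Finset.sum_le_sum fun j hj =>
          had.le_real (hyS j hj) (by positivity) (mul_le_of_le_one_left hs.le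
            ((div_le_one (by positivity)).2 (by nlinarith)))
      _ = μ.real (⋃ j ∈ J, Metric.ball (yj j) (η * s)) := (measureReal_biUnion_finset hdis
          (fun _ _ => measurableSet_ball)
          fun j hj => ne_top_of_le_ne_top hfin (measure_mono (hsub j hj))).symm
      _ ≤ μ.real (Metric.ball x s) := measureReal_mono (iUnion₂_subset hsub) hfin
      _ ≤ _ := had.real_le hx hs le_rfl
  rw [hcardJ, Nat.cast_pow] at hle
  have h24 : 1 ≤ η * (24 * m * K) := by
    rw [hη, div_mul_eq_mul_div, one_le_div (by positivity)]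
    nlinarith [mul_le_mul hm0 hK0 zero_le_one (by positivity)]
  have hKm : (K : ℝ) ^ (n + 1) ≤ (K : ℝ) ^ m := pow_le_pow_right₀ hK0 hnm
  have hp : 1 ≤ (η * (24 * m * K)) ^ n := one_le_pow₀ h24
  have : (K : ℝ) ≤ C ^ 2 * (24 * m) ^ n := by
    have h1 : (K : ℝ) ^ (n + 1) * (C⁻¹ * (η * s) ^ n) ≤ C * s ^ n :=
      (mul_le_mul_of_nonneg_right hKm (by positivity)).trans hle
    rw [mul_pow, ← mul_assoc, ← mul_assoc] at h1
    have h2 := le_of_mul_le_mul_right h1 (pow_pos hs n)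
    have h3 : (K : ℝ) ^ (n + 1) * η ^ n ≤ C ^ 2 := by
      calc (K : ℝ) ^ (n + 1) * η ^ n = C * ((K : ℝ) ^ (n + 1) * C⁻¹ * η ^ n) := by field_simp
        _ ≤ C * C := mul_le_mul_of_nonneg_left h2 hC0.le
        _ = C ^ 2 := by ring
    calc (K : ℝ) ≤ K * (η * (24 * m * K)) ^ n := le_mul_of_one_le_right (by positivity) hp
      _ = (K : ℝ) ^ (n + 1) * η ^ n * (24 * m) ^ n := by ring
      _ ≤ _ := mul_le_mul_of_nonneg_right h3 (by positivity)
  linarith

/-- An `n`-regular set is not near a plane of dimension below `n`. -/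
theorem exists_not_flat_unif {C : ℝ} (hC : 1 ≤ C) (k : ℕ) (hkn : k + 1 = n) :
    ∃ δ : ℝ, 0 < δ ∧ δ ≤ 1 ∧ ∀ μ : Measure E, ∀ x ∈ μ.support, ∀ t, LocalAD μ n C t →
      ∀ W : Submodule ℝ E, Module.finrank ℝ W = k → ¬Flat μ.support x t δ W := by
  have hC0 : 0 < C := lt_of_lt_of_le one_pos hC
  set D := 9 ^ k * ((k : ℝ) + 2) ^ n * (C * 2 ^ n) with hD
  have hD0 : 0 < D := by positivity
  refine ⟨min 1 (C⁻¹ / (2 * D)), lt_min one_pos (by positivity), min_le_left _ _,
    fun μ x hx t had W hW hflat => ?_⟩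
  set δ := min 1 (C⁻¹ / (2 * D))
  have hδ : 0 < δ := lt_min one_pos (by positivity)
  have hδ1 : δ ≤ 1 := min_le_left _ _
  have ht : 0 < t := had.2.1
  set b := (stdOrthonormalBasis ℝ W).reindex (finCongr hW)
  set h := δ * t with hhdef
  have hh : 0 < h := by positivity
  obtain ⟨L, hL1, hL2⟩ : ∃ L : ℕ, 2 / δ + 1 ≤ L ∧ (L : ℝ) ≤ 2 / δ + 2 := by
    refine ⟨⌈2 / δ + 1⌉₊, Nat.le_ceil _, ?_⟩
    linarith [Nat.ceil_lt_add_one (show 0 ≤ 2 / δ + 1 by positivity)]
  set J := Fintype.piFinset fun _ : Fin k => Finset.Icc (-(L : ℤ)) L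
  have hcardJ : J.card = (2 * L + 1) ^ k := by
    simp only [J, Fintype.card_piFinset, Int.card_Icc, Finset.prod_const, Finset.card_univ,
      Fintype.card_fin]
    congr 1
    omega
  set ν := μ.restrict (Metric.ball x t) with hνdef
  haveI : IsFiniteMeasure ν := isFiniteMeasure_restrict.2 (had.ne_top hx ht le_rfl)
  have hcover : ∀ᵐ y ∂ν, y ∈ ⋃ j ∈ J, Metric.ball (x + (gridPt b h j : E)) (((k : ℝ) + 2) * h) := by
    rw [hνdef]
    filter_upwards [ae_mem_support_restrict μ _, ae_restrict_mem measurableSet_ball] with y hy hyt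
    rw [Metric.mem_ball] at hyt
    obtain ⟨w, hw, hwd⟩ := hflat y hy hyt.le
    set w' : W := ⟨w, hw⟩
    set j : Fin k → ℤ := fun i => ⌊⟪b i, w'⟫ / h⌋ with hj
    have hwn : ‖w'‖ ≤ 2 * t := by
      change ‖w‖ ≤ 2 * t
      have h1 := norm_le_insert (y - x) w
      rw [← dist_eq_norm] at h1
      nlinarith [mul_le_mul_of_nonneg_right hδ1 ht.le]
    have hjJ : j ∈ J := Fintype.mem_piFinset.2 fun i => by
      have h1 : |⟪b i, w'⟫ / h| ≤ 2 / δ := by
        rw [abs_div, abs_of_pos hh, div_le_div_iff₀ hh hδ]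
        have h2 := abs_real_inner_le_norm (b i) w'
        rw [b.orthonormal.1 i, one_mul] at h2
        calc |⟪b i, w'⟫| * δ ≤ 2 * t * δ := mul_le_mul_of_nonneg_right (h2.trans hwn) hδ.le
          _ = 2 * h := by rw [hhdef]; ring
      have h3 := abs_le.1 h1
      refine Finset.mem_Icc.2 ⟨Int.le_floor.2 (by push_cast; linarith [h3.1]), ?_⟩
      have h4 := Int.floor_le (⟪b i, w'⟫ / h)
      have : (j i : ℝ) ≤ ((L : ℤ) : ℝ) := by push_cast; simp only [hj]; linarith [h3.2]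
      exact_mod_cast this
    refine mem_iUnion₂.2 ⟨j, hjJ, Metric.mem_ball.2 ?_⟩
    have hdiff : ‖w' - gridPt b h j‖ ≤ k * h := by
      rw [gridPt]
      nth_rw 1 [← b.sum_repr' w']
      rw [← Finset.sum_sub_distrib]
      refine (norm_sum_le _ _).trans ((Finset.sum_le_sum fun i _ => ?_).trans
        (le_of_eq (by simp : ∑ _i : Fin k, h = k * h)))
      rw [← sub_smul, norm_smul, b.orthonormal.1 i, mul_one, Real.norm_eq_abs]
      have h1 := Int.floor_le (⟪b i, w'⟫ / h)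
      have h2 := Int.lt_floor_add_one (⟪b i, w'⟫ / h)
      rw [le_div_iff₀ hh] at h1
      rw [div_lt_iff₀ hh] at h2
      rw [abs_le]
      constructor <;> simp only [hj] <;> linarith
    have e : y - (x + (gridPt b h j : E)) = (y - x - w) + ((w' - gridPt b h j : W) : E) := by
      rw [Submodule.coe_sub]; simp only [w']; abel
    rw [dist_eq_norm, e]
    refine (norm_add_le _ _).trans_lt ?_
    have : ‖((w' - gridPt b h j : W) : E)‖ ≤ k * h := hdiff
    rw [hhdef] at this ⊢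
    nlinarith [hwd]
  have hbound : ν.real univ ≤ J.card * (C * 2 ^ n * (((k : ℝ) + 2) * h) ^ n) := by
    refine le_trans (le_of_eq (measureReal_congr ?_)) ((measureReal_biUnion_finset_le J
      fun j => Metric.ball (x + (gridPt b h j : E)) (((k : ℝ) + 2) * h)).trans ?_)
    · exact (eventuallyEq_univ.2 hcover).symm
    · refine (Finset.sum_le_sum fun j _ => had.growth hx _ (by positivity)).trans (le_of_eq ?_)
      simp
  have hlow : C⁻¹ * t ^ n ≤ ν.real univ := by
    rw [hνdef, measureReal_restrict_apply MeasurableSet.univ, univ_inter]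
    exact had.le_real hx ht le_rfl
  have hJle : (J.card : ℝ) ≤ (9 / δ) ^ k := by
    rw [hcardJ, Nat.cast_pow]
    refine pow_le_pow_left₀ (by positivity) ?_ k
    push_cast
    rw [le_div_iff₀ hδ]
    have h1 : (L : ℝ) * δ ≤ 2 + 2 * δ := by
      have := mul_le_mul_of_nonneg_right hL2 hδ.le
      rwa [add_mul, div_mul_cancel₀ _ hδ.ne'] at this
    nlinarith
  have key : C⁻¹ * t ^ n ≤ δ * D * t ^ n := by
    refine hlow.trans (hbound.trans ((mul_le_mul_of_nonneg_right hJle (by positivity)).trans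
      (le_of_eq ?_)))
    rw [hhdef, hD, ← hkn, mul_pow _ (δ * t), mul_pow δ t, div_pow, pow_succ δ k]
    field_simp
  have h1 := le_of_mul_le_mul_right key (pow_pos ht n)
  have h2 : δ ≤ C⁻¹ / (2 * D) := min_le_right _ _
  rw [le_div_iff₀ (by positivity)] at h2
  nlinarith [inv_pos.2 hC0]

omit [BorelSpace E] [MeasurableSpace E] in
lemma finrank_inf_orth {m : ℕ} {W : Submodule ℝ E} (hW : Module.finrank ℝ W = m + 1) {u : E}
    (hu : u ∈ W) (hu0 : u ≠ 0) : Module.finrank ℝ ((ℝ ∙ u)ᗮ ⊓ W : Submodule ℝ E) = m := by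
  have h := Submodule.finrank_add_inf_finrank_orthogonal (K₁ := ℝ ∙ u) (K₂ := W)
    ((Submodule.span_singleton_le_iff_mem _ _).2 hu)
  rw [finrank_span_singleton hu0, hW] at h
  omega

/-- Removing from a plane a direction in which the set is flat. -/
lemma flat_inf_orth {x y0 e u : E} {s t δ δ' ε : ℝ} {W : Submodule ℝ E} {S : Set E}
    (hflat : Flat S x s δ W) (hy0 : y0 ∈ S) (hy0x : dist y0 x ≤ s / 2) (hts : t ≤ s / 2)
    (hu : u ∈ W) (hun : ‖e - u‖ ≤ ε) (he : ‖e‖ = 1) (hε : ε ≤ 1 / 2)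
    (hnormal : ∀ y ∈ S, dist y y0 ≤ t → |⟪e, y - y0⟫| ≤ δ' * t) {δ1 : ℝ}
    (hδ1 : 2 * δ' * t + 2 * ε * t + 10 * δ * s ≤ δ1 * t) :
    Flat S y0 t δ1 ((ℝ ∙ u)ᗮ ⊓ W) := by
  have hunorm : 1 / 2 ≤ ‖u‖ := by
    have h1 := norm_le_insert' e u
    linarith
  have hu1 : ‖u‖ ≤ 3 / 2 := by
    have h1 := norm_le_insert e u
    linarith
  intro y hy hyt
  obtain ⟨w0, hw0, hw0d⟩ := hflat y0 hy0 (by linarith [dist_nonneg (x := y0) (y := x)])
  obtain ⟨w, hw, hwd⟩ := hflat y hy (by linarith [dist_triangle y y0 x])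
  set v := w - w0
  have hv : v ∈ W := sub_mem hw hw0
  set c := ⟪u, v⟫ / ‖u‖ ^ 2 with hc
  have hu0 : 0 < ‖u‖ := lt_of_lt_of_le (by norm_num) hunorm
  refine ⟨v - c • u, ⟨Submodule.mem_orthogonal_singleton_iff_inner_right.2 ?_,
    sub_mem hv (W.smul_mem c hu)⟩, ?_⟩
  · rw [inner_sub_right, real_inner_smul_right, real_inner_self_eq_norm_sq, hc,
      div_mul_cancel₀ _ (pow_pos hu0 2).ne', sub_self]
  · set r := (y - x - w) - (y0 - x - w0) with hr
    have hrn : ‖r‖ ≤ 2 * (δ * s) := (norm_sub_le _ _).trans (by linarith)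
    have hvy : v = (y - y0) - r := by simp only [v, hr]; abel
    have hδs : 0 ≤ δ * s := (norm_nonneg _).trans hwd
    have huv : |⟪u, v⟫| ≤ δ' * t + ε * t + 3 * (δ * s) := by
      have e1 : ⟪u, v⟫ = ⟪e, y - y0⟫ - ⟪e - u, y - y0⟫ - ⟪u, r⟫ := by
        rw [hvy, inner_sub_right, inner_sub_left]; ring
      rw [e1]
      have a1 := hnormal y hy hyt
      have a2 : |⟪e - u, y - y0⟫| ≤ ε * t := (abs_real_inner_le_norm _ _).trans
        (mul_le_mul hun (by rwa [← dist_eq_norm]) (norm_nonneg _) ((norm_nonneg _).trans hun))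
      have a3 : |⟪u, r⟫| ≤ 3 * (δ * s) := (abs_real_inner_le_norm _ _).trans
        ((mul_le_mul hu1 hrn (norm_nonneg _) (by norm_num)).trans (le_of_eq (by ring)))
      rw [abs_le] at a1 a2 a3 ⊢
      constructor <;> linarith
    have e2 : y - y0 - (v - c • u) = r + c • u := by rw [hvy]; abel
    rw [e2]
    refine (norm_add_le _ _).trans ?_
    have hcu : ‖c • u‖ ≤ 2 * |⟪u, v⟫| := by
      rw [norm_smul, Real.norm_eq_abs, hc, abs_div, abs_pow, abs_norm,
        show |⟪u, v⟫| / ‖u‖ ^ 2 * ‖u‖ = |⟪u, v⟫| / ‖u‖ by field_simp, div_le_iff₀ hu0]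
      nlinarith [abs_nonneg ⟪u, v⟫]
    nlinarith

/-- A hole near a flat piece produces a piece flat in one dimension less. -/
theorem exists_step_unif (hn : 1 ≤ n) {C A : ℝ} (hC : 1 ≤ C) (hA : 0 ≤ A) {δ1 η : ℝ} (hδ1 : 0 < δ1)
    (hη : 0 < η) (hη1 : η ≤ 1) :
    ∃ c δ : ℝ, 0 < c ∧ c ≤ 1 ∧ 0 < δ ∧ ∀ (μ : Measure E), ∀ x ∈ μ.support,
      ∀ (s : ℝ) (W : Submodule ℝ E) (m : ℕ),
      Module.finrank ℝ W = m + 1 → LocalAD μ n C s → Flat μ.support x s δ W →
      WinBdd n μ x s (c * s) s A →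
      ∀ p ∈ W, ‖p‖ ≤ s / 4 → (∀ y ∈ μ.support, η * s ≤ dist y (x + p)) →
      ∃ y0 ∈ μ.support, ∃ (t : ℝ) (W' : Submodule ℝ E), c * s ≤ t ∧ t ≤ s / 4 ∧
        dist y0 x ≤ s / 2 ∧ Module.finrank ℝ W' = m ∧ Flat μ.support y0 t δ1 W' := by
  set δ' := min (δ1 / 4) 1 with hδ'
  obtain ⟨c', hc'0, hc'1, htouch⟩ := exists_flat_normal_unif (E := E) hn hC hA (δ := δ')
    (lt_min (by linarith) one_pos) (min_le_right _ _)
  set δ := min (η / 2) (δ1 * (η * c') / 30) with hδdef
  have hδ : 0 < δ := lt_min (by linarith) (by positivity)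
  refine ⟨c' * η, δ, by positivity, mul_le_one₀ hc'1 hη.le hη1, hδ,
    fun μ x hx s W m hW had hflat hwin p hp hps hfar => ?_⟩
  have hs : 0 < s := had.2.1
  obtain ⟨y0, hy0, hdist⟩ := Measure.isClosed_support.exists_infDist_eq_dist ⟨x, hx⟩ (x + p)
  set ρ := dist (x + p) y0 with hρ
  have hmin : ∀ y ∈ μ.support, ρ ≤ dist (x + p) y := fun y hy => by
    rw [← hdist]; exact Metric.infDist_le_dist_of_mem hy
  have hρη : η * s ≤ ρ := by rw [hρ, dist_comm]; exact hfar y0 hy0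
  have hρs : ρ ≤ s / 4 := by
    refine (hmin x hx).trans ?_
    rw [dist_eq_norm, add_sub_cancel_left]
    exact hps
  have hρ0 : 0 < ρ := lt_of_lt_of_le (by positivity) hρη
  have hy0x : dist y0 x ≤ s / 2 := by
    have := dist_triangle y0 (x + p) x
    rw [dist_comm y0 (x + p), ← hρ, show dist (x + p) x = ‖p‖ by rw [dist_eq_norm, add_sub_cancel_left]]
      at this
    linarith
  set e := ρ⁻¹ • (y0 - (x + p)) with he
  have hen : ‖e‖ = 1 := by
    rw [he, norm_smul, norm_inv, Real.norm_eq_abs, abs_of_pos hρ0, ← dist_eq_norm, dist_comm,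
      ← hρ, inv_mul_cancel₀ hρ0.ne']
  have htouch' : ∀ y ∈ μ.support, -(dist y y0 ^ 2 / (2 * ρ)) ≤ ⟪e, y - y0⟫ := by
    intro y hy
    have h1 := pow_le_pow_left₀ hρ0.le (hmin y hy) 2
    have e1 : (x + p) - y = -((y0 - (x + p)) + (y - y0)) := by abel
    rw [dist_eq_norm (x + p) y, e1, norm_neg, norm_add_sq_real, ← dist_eq_norm,
      dist_comm y0 (x + p), ← hρ, ← dist_eq_norm] at h1
    rw [he, real_inner_smul_left, ← neg_div, inv_mul_eq_div, div_le_div_iff₀ (by positivity) hρ0]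
    nlinarith
  have hcη : c' * η * s ≤ c' * ρ := by
    rw [mul_assoc]; exact mul_le_mul_of_nonneg_left hρη hc'0.le
  obtain ⟨t, ht1, ht2, hnormal⟩ := htouch μ y0 hy0 e ρ hen (had.mono hρ0 (by linarith)) htouch'
    fun a b ha hab hb => hwin y0 hy0 (by linarith) a b
      (hcη.trans ha) hab (by linarith)
  obtain ⟨w0, hw0, hw0d⟩ := hflat y0 hy0 (by linarith)
  set u := ρ⁻¹ • (w0 - p) with hu
  have hudiff : ‖e - u‖ ≤ δ / η := by
    rw [he, hu, ← smul_sub, norm_smul, norm_inv, Real.norm_eq_abs, abs_of_pos hρ0,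
      show y0 - (x + p) - (w0 - p) = y0 - x - w0 by abel, inv_mul_eq_div,
      div_le_div_iff₀ hρ0 hη]
    nlinarith [mul_le_mul_of_nonneg_left hρη hδ.le, mul_le_mul_of_nonneg_right hw0d hη.le]
  have hδη : δ / η ≤ 1 / 2 := by
    rw [div_le_iff₀ hη]
    linarith [show δ ≤ η / 2 from min_le_left _ _]
  have huW : u ∈ W := W.smul_mem _ (sub_mem hw0 hp)
  have hu0 : u ≠ 0 := by
    intro h0
    rw [h0, sub_zero, hen] at hudiff
    linarith
  have hct : c' * η * s ≤ t := hcη.trans ht1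
  refine ⟨y0, hy0, t, (ℝ ∙ u)ᗮ ⊓ W, hct, by linarith, hy0x, finrank_inf_orth hW huW hu0,
    flat_inf_orth hflat hy0 hy0x (by linarith) huW hudiff hen hδη hnormal ?_⟩
  have ht0 : 0 < t := lt_of_lt_of_le (by positivity) hct
  have h1 : δ' * t ≤ δ1 / 4 * t := mul_le_mul_of_nonneg_right (min_le_left _ _) ht0.le
  have h2 : δ ≤ δ1 * (η * c') / 30 := min_le_right _ _
  have h3 : δ / η ≤ δ1 / 30 := by
    rw [div_le_iff₀ hη]
    refine h2.trans ?_
    nlinarith [mul_pos hδ1 hη]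
  have h4 : δ * s ≤ δ1 / 30 * t := by
    refine (mul_le_mul_of_nonneg_right h2 hs.le).trans ?_
    calc δ1 * (η * c') / 30 * s = δ1 / 30 * (c' * η * s) := by ring
      _ ≤ _ := mul_le_mul_of_nonneg_left hct (by linarith)
  have h5 := mul_le_mul_of_nonneg_right h3 ht0.le
  nlinarith

/-- Downward induction on the dimension. -/
theorem exists_flat_unif (hn : 1 ≤ n) {C A : ℝ} (hC : 1 ≤ C) (hA : 0 ≤ A) :
    ∀ j m : ℕ, n ≤ m → m + j = Module.finrank ℝ E → ∀ δ : ℝ, 0 < δ →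
      ∃ c : ℝ, 0 < c ∧ c ≤ 1 ∧ ∀ μ : Measure E, ∀ z ∈ μ.support, ∀ s : ℝ, LocalAD μ n C s →
        WinBdd n μ z (s / 2) (c * s) (s / 4) A →
        ∃ x ∈ μ.support, ∃ (t : ℝ) (W : Submodule ℝ E), c * s ≤ t ∧ dist x z + t ≤ s / 4 ∧
          Module.finrank ℝ W = m ∧ Flat μ.support x t δ W := by
  intro j
  induction j with
  | zero =>
    intro m _ hm δ hδ
    refine ⟨1 / 4, by norm_num, by norm_num, fun μ z hz s had _ => ⟨z, hz, s / 4, ⊤, ?_, ?_, ?_, ?_⟩⟩
    · linarith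
    · rw [dist_self]; linarith
    · rw [finrank_top]; omega
    · intro y _ _
      exact ⟨y - z, Submodule.mem_top, by rw [sub_self, norm_zero]; have := had.2.1; positivity⟩
  | succ j ih =>
    intro m hnm hm δ hδ
    obtain ⟨η, hη, hη1, hhole⟩ := exists_hole_unif (E := E) (n := n) hC (m + 1) (by omega)
    obtain ⟨c', δ', hc', hc'1, hδ', hstep⟩ := exists_step_unif (E := E) hn hC hA hδ hη hη1
    obtain ⟨c1, hc1, hc11, hflat⟩ := ih (m + 1) (by omega) (by omega) δ' hδ'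
    refine ⟨c' * c1, by positivity, mul_le_one₀ hc'1 hc1.le hc11, fun μ z hz s had hwin => ?_⟩
    have hs := had.2.1
    have hc1s : c' * c1 * s ≤ c1 * s :=
      mul_le_mul_of_nonneg_right (mul_le_of_le_one_left hc1.le hc'1) hs.le
    obtain ⟨x, hx, t, W, hct, hxz, hW, hfl⟩ := hflat μ z hz s had
      fun y hy hd a b ha => hwin y hy hd a b (hc1s.trans ha)
    have ht : 0 < t := lt_of_lt_of_le (by positivity) hct
    have hxz0 := dist_nonneg (x := x) (y := z)
    have hadt := had.mono ht (by linarith)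
    obtain ⟨p, hp, hps, hfar⟩ := hhole μ x hx t hadt W hW
    obtain ⟨y0, hy0, t', W', h1, h2, h3, h4, h5⟩ := hstep μ x hx t W m hW hadt hfl
      (fun y hy hd a b ha hab hb => hwin y hy (by linarith [dist_triangle y x z]) a b
        (le_trans (by rw [mul_assoc]; exact mul_le_mul_of_nonneg_left hct hc'.le) ha) hab
        (by linarith)) p hp hps hfar
    refine ⟨y0, hy0, t', W', le_trans ?_ h1, by linarith [dist_triangle y0 x z], h4, h5⟩
    rw [mul_assoc]
    exact mul_le_mul_of_nonneg_left hct hc'.le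

/-- A good ball contains a comparable bilaterally flat ball. -/
theorem exists_bilaterallyFlat_unif (hn : 1 ≤ n) (hnd : n ≤ Module.finrank ℝ E) {C A ε : ℝ}
    (hC : 1 ≤ C) (hA : 0 ≤ A) (hε : 0 < ε) :
    ∃ c : ℝ, 0 < c ∧ ∀ μ : Measure E, ∀ z ∈ μ.support, ∀ s : ℝ, LocalAD μ n C s →
      Good n μ z s A c →
      ∃ x ∈ μ.support, ∃ t : ℝ, c * s ≤ t ∧ Metric.closedBall x t ⊆ Metric.closedBall z s ∧
        ∃ W : Submodule ℝ E, Module.finrank ℝ W = n ∧ BilaterallyFlat μ.support x t ε W := by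
  obtain ⟨k, rfl⟩ : ∃ k, n = k + 1 := ⟨n - 1, by omega⟩
  obtain ⟨δ0, hδ0, hδ01, hnot⟩ := exists_not_flat_unif (E := E) hC k rfl
  set η := min (ε / 4) 1 with hηdef
  obtain ⟨c', δ', hc', hc'1, hδ', hstep⟩ := exists_step_unif (E := E) hn hC hA hδ0 (η := η)
    (lt_min (by linarith) one_pos) (min_le_right _ _)
  obtain ⟨c1, hc1, hc11, hflat⟩ := exists_flat_unif (E := E) hn hC hA
    (Module.finrank ℝ E - (k + 1)) (k + 1) le_rfl (by omega) (min δ' (ε / 4))
    (lt_min hδ' (by linarith))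
  refine ⟨c' * c1 / 4, by positivity, fun μ z hz s had hgood => ?_⟩
  have hs := had.2.1
  have hcs : c' * c1 / 4 * s ≤ c1 * s := mul_le_mul_of_nonneg_right (by nlinarith) hs.le
  obtain ⟨x, hx, t, W, hct, hxz, hW, hfl⟩ := hflat μ z hz s had
    fun y hy hd a b ha => hgood y hy hd a b (hcs.trans ha)
  have ht : 0 < t := lt_of_lt_of_le (by positivity) hct
  have hxz0 := dist_nonneg (x := x) (y := z)
  have hadt := had.mono ht (by linarith)
  refine ⟨x, hx, t / 4, ?_, ?_, W, hW, ?_, ?_⟩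
  · calc c' * c1 / 4 * s ≤ c1 * s / 4 := by nlinarith [mul_pos hc1 hs]
      _ ≤ t / 4 := by linarith
  · exact Metric.closedBall_subset_closedBall' (by linarith)
  · intro y hy hyd
    obtain ⟨w, hw, hwd⟩ := hfl y hy (by linarith)
    refine ⟨w, hw, ?_⟩
    rw [dist_eq_norm, ← sub_sub]
    refine hwd.trans ?_
    calc min δ' (ε / 4) * t ≤ ε / 4 * t := mul_le_mul_of_nonneg_right (min_le_right _ _) ht.le
      _ = ε * (t / 4) := by ring
  · intro p hp hps
    by_contra hcon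
    simp only [not_exists, not_and, not_le] at hcon
    have hfl' : Flat μ.support x t δ' W := fun y hy hd => by
      obtain ⟨w, hw, hwd⟩ := hfl y hy hd
      exact ⟨w, hw, hwd.trans (mul_le_mul_of_nonneg_right (min_le_left _ _) ht.le)⟩
    obtain ⟨y0, hy0, t', W', h1, h2, -, h4, h5⟩ := hstep μ x hx t W k hW hadt hfl'
      (fun y hy hd a b ha hab hb => hgood y hy (by linarith [dist_triangle y x z]) a b
        (le_trans (by nlinarith [mul_le_mul_of_nonneg_left hct hc'.le, mul_pos (mul_pos hc' hc1) hs])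
          ha) hab (by linarith)) p hp hps fun y hy => by
        refine le_trans ?_ (hcon y hy).le
        calc η * t ≤ ε / 4 * t := mul_le_mul_of_nonneg_right (min_le_left _ _) ht.le
          _ = ε * (t / 4) := by ring
    exact hnot μ y0 hy0 t' (hadt.mono (lt_of_lt_of_le (by positivity) h1) (by linarith)) W' h4 h5

/-- A good ball contains a comparable bilaterally flat ball, for one fixed measure. -/
theorem exists_bilaterallyFlat (hn : 1 ≤ n) (hnd : n ≤ Module.finrank ℝ E) {C A ε : ℝ}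
    (hC : 1 ≤ C) (hA : 0 ≤ A) (hε : 0 < ε) :
    ∃ c : ℝ, 0 < c ∧ ∀ z ∈ μ.support, ∀ s : ℝ, LocalAD μ n C s → Good n μ z s A c →
      ∃ x ∈ μ.support, ∃ t : ℝ, c * s ≤ t ∧ Metric.closedBall x t ⊆ Metric.closedBall z s ∧
        ∃ W : Submodule ℝ E, Module.finrank ℝ W = n ∧ BilaterallyFlat μ.support x t ε W :=
  let ⟨c, hc, h⟩ := exists_bilaterallyFlat_unif (E := E) hn hnd hC hA hε
  ⟨c, hc, h μ⟩

end

end Vale.Agent.P120
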