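import Vale.Agent.P120.Basic

/-!
# P120: in every ball some comparable ball has bounded windows

If in every small ball some window of the Riesz transform of `1` were large, a sum over `M`
dyadic generations of normalised bump differences would pair with it like `M` while having
squared norm `O(M)`.
-/

namespace Vale.Agent.P120

open MeasureTheory Set Filter
open scoped Topology RealInnerProductSpace

noncomputable section

variable {E : Type*} [NormedAddCommGroup E] [InnerProductSpace ℝ E] [MeasurableSpace E]
  [BorelSpace E] [FiniteDimensional ℝ E] {n : ℕ} {ν : Measure E}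

/-- The truncated transform of the indicator of a set. -/
def trunc (n : ℕ) (ν : Measure E) (ε : ℝ) (S : Set E) (x : E) : E :=
  ∫ y in S ∩ {y | ε < dist x y}, kernel n (x - y) ∂ν

/-- A Lipschitz bump, `1` on the ball of radius `t`, zero outside the ball of radius `2 t`. -/
def bump (z : E) (t : ℝ) (y : E) : ℝ := max 0 (min 1 (2 - dist y z / t))

/-- The difference of two normalised bumps. -/
def psi (ν : Measure E) (z : E) (a b : ℝ) (y : E) : ℝ :=
  bump z (a / 4) y / (∫ y, bump z (a / 4) y ∂ν) - bump z (b / 4) y / (∫ y, bump z (b / 4) y ∂ν)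

lemma measurableSet_far (ε : ℝ) (x : E) : MeasurableSet {y : E | ε < dist x y} :=
  measurableSet_lt measurable_const (continuous_const.dist continuous_id).measurable

lemma measurable_kernel (n : ℕ) : Measurable (kernel n : E → E) := by
  unfold kernel; fun_prop

lemma integrableOn_kernel [IsFiniteMeasure ν] (x : E) {t : ℝ} (ht : 0 < t) {S : Set E}
    (hS : MeasurableSet S) (hsub : ∀ y ∈ S, t ≤ dist x y) :
    IntegrableOn (fun y => kernel n (x - y)) S ν := by
  refine Integrable.of_bound (C := (t ^ n)⁻¹)
    ((measurable_kernel n).comp (measurable_const.sub measurable_id)).aestronglyMeasurable ?_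
  refine (ae_restrict_iff' hS).2 (Eventually.of_forall fun y hy => (norm_kernel_le n _).trans ?_)
  refine inv_anti₀ (by positivity) (pow_le_pow_left₀ ht.le ?_ _)
  rw [← dist_eq_norm]; exact hsub y hy

lemma norm_trunc_le [IsFiniteMeasure ν] {ε : ℝ} (hε : 0 < ε) {S : Set E} (hS : MeasurableSet S)
    (x : E) : ‖trunc n ν ε S x‖ ≤ ν.real univ * (ε ^ n)⁻¹ := by
  refine (norm_setIntegral_le_of_norm_le_const (measure_lt_top _ _) fun y hy => ?_).trans
    (le_of_le_of_eq (mul_le_mul_of_nonneg_left (measureReal_mono (subset_univ _))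
      (by positivity)) (mul_comm _ _))
  refine (norm_kernel_le n _).trans (inv_anti₀ (by positivity) (pow_le_pow_left₀ hε.le ?_ _))
  rw [← dist_eq_norm]
  exact le_of_lt hy.2

lemma stronglyMeasurable_trunc [IsFiniteMeasure ν] (ε : ℝ) {S : Set E} (hS : MeasurableSet S) :
    StronglyMeasurable (trunc n ν ε S) := by
  have h : StronglyMeasurable fun x => ∫ y,
      ({p : E × E | p.2 ∈ S ∧ ε < dist p.1 p.2}.indicator fun p => kernel n (p.1 - p.2)) (x, y)
        ∂ν := by
    refine StronglyMeasurable.integral_prod_right ?_
    exact (((measurable_kernel n).comp (measurable_fst.sub measurable_snd)).indicator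
      ((measurable_snd hS).inter (measurableSet_lt measurable_const
        (continuous_fst.dist continuous_snd).measurable))).stronglyMeasurable
  convert h using 1
  funext x
  rw [trunc, ← integral_indicator (hS.inter (measurableSet_far ε x))]
  rfl

lemma continuous_bump (z : E) (t : ℝ) : Continuous (bump z t) := by unfold bump; fun_prop

lemma bump_mem_Icc (z : E) (t : ℝ) (y : E) : 0 ≤ bump z t y ∧ bump z t y ≤ 1 :=
  ⟨le_max_left _ _, max_le zero_le_one (min_le_left _ _)⟩

lemma bump_eq_zero {z y : E} {t : ℝ} (ht : 0 < t) (h : 2 * t ≤ dist y z) : bump z t y = 0 := by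
  have : 2 ≤ dist y z / t := (le_div_iff₀ ht).2 h
  exact max_eq_left ((min_le_right _ _).trans (by linarith))

lemma bump_eq_one {z y : E} {t : ℝ} (ht : 0 < t) (h : dist y z < t) : bump z t y = 1 := by
  have : dist y z / t ≤ 1 := (div_le_one ht).2 h.le
  unfold bump
  rw [min_eq_left (by linarith), max_eq_right zero_le_one]

lemma abs_bump_sub_le {z : E} {t : ℝ} (ht : 0 < t) (u v : E) :
    |bump z t u - bump z t v| ≤ dist u v / t := by
  unfold bump
  rw [max_comm (0 : ℝ), max_comm (0 : ℝ)]
  refine (abs_max_sub_max_le_abs _ _ _).trans ?_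
  rw [min_comm (1 : ℝ), min_comm (1 : ℝ)]
  refine (abs_min_sub_min_le_max _ _ _ _).trans ?_
  rw [sub_self (1 : ℝ), abs_zero, max_eq_left (abs_nonneg _), sub_sub_sub_cancel_left, ← sub_div,
    abs_div, abs_of_pos ht]
  exact div_le_div_of_nonneg_right ((abs_dist_sub_le v u z).trans (le_of_eq (dist_comm _ _))) ht.le

section Finite

variable [IsFiniteMeasure ν]

lemma integrable_bump (z : E) (t : ℝ) : Integrable (bump z t) ν :=
  Integrable.of_bound (continuous_bump z t).aestronglyMeasurable 1 (Eventually.of_forall fun y => by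
    rw [Real.norm_eq_abs, abs_of_nonneg (bump_mem_Icc z t y).1]; exact (bump_mem_Icc z t y).2)

lemma le_integral_bump (z : E) {t : ℝ} (ht : 0 < t) :
    ν.real (Metric.ball z t) ≤ ∫ y, bump z t y ∂ν := by
  rw [← integral_indicator_one (measurableSet_ball (x := z) (ε := t))]
  refine integral_mono ((integrable_const _).indicator measurableSet_ball) (integrable_bump z t)
    fun y => ?_
  by_cases h : y ∈ Metric.ball z t
  · rw [indicator_of_mem h, Pi.one_apply, bump_eq_one ht h]
  · rw [indicator_of_notMem h]; exact (bump_mem_Icc z t y).1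

variable {K κ CR : ℝ}

lemma norm_avg_trunc_sub_le (hν : ∀ z t, 0 < t → ν.real (Metric.ball z t) ≤ K * t ^ n)
    (hK : 0 ≤ K) {ε : ℝ} (hε : 0 < ε)
    (hR : ∀ S, MeasurableSet S → ∫ x, ‖trunc n ν ε S x‖ ^ 2 ∂ν ≤ CR ^ 2 * ν.real S)
    (z : E) {t : ℝ} (ht : 0 < t) (hεt : ε < 2 * t) (hκ : 0 < κ)
    (hlow : κ * t ^ n ≤ ν.real (Metric.ball z t)) :
    ‖(∫ y, bump z t y ∂ν)⁻¹ • (∫ x, bump z t x • trunc n ν ε univ x ∂ν) -
        ∫ y in {y | 4 * t ≤ dist z y}, kernel n (z - y) ∂ν‖ ≤
      (CR ^ 2 + 1) * K * 4 ^ n / κ + kerConst n * 2 ^ n * K := by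
  set m := ∫ y, bump z t y ∂ν
  have hm : κ * t ^ n ≤ m := hlow.trans (le_integral_bump z ht)
  have hm0 : 0 < m := lt_of_lt_of_le (by positivity) hm
  set N := Metric.ball z (4 * t)
  set F : Set E := {y | 4 * t ≤ dist z y}
  have hNc : Nᶜ = F := by ext y; simp [N, F, Metric.mem_ball, dist_comm]
  set G := ∫ y in F, kernel n (z - y) ∂ν
  set bd := ν.real univ * (ε ^ n)⁻¹
  have hφ : ∀ y, bump z t y ≠ 0 → dist y z < 2 * t := fun y hy =>
    lt_of_not_ge fun h => hy (bump_eq_zero ht h)
  have hsplit : ∀ x, bump z t x • trunc n ν ε univ x = bump z t x • trunc n ν ε N x +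
      bump z t x • (∫ y in F, kernel n (x - y) ∂ν) := by
    intro x
    by_cases hx : bump z t x = 0
    · simp [hx]
    have hd := hφ x hx
    have hfar : F ∩ {y | ε < dist x y} = F := by
      refine inter_eq_left.2 fun y hy => ?_
      have := dist_triangle z x y
      rw [dist_comm z x] at this
      simp only [F, mem_setOf_eq] at hy ⊢
      linarith
    rw [← smul_add]
    congr 1
    have hN : MeasurableSet N := measurableSet_ball
    have hu : (univ : Set E) ∩ {y | ε < dist x y} =
        N ∩ {y | ε < dist x y} ∪ F ∩ {y | ε < dist x y} := by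
      rw [← union_inter_distrib_right, ← hNc, union_compl_self]
    have hFm : MeasurableSet F := hNc ▸ hN.compl
    have hF : MeasurableSet (F ∩ {y | ε < dist x y}) := hFm.inter (measurableSet_far ε x)
    rw [trunc, trunc, hu, setIntegral_union (Disjoint.mono inter_subset_left inter_subset_left
      (hNc ▸ disjoint_compl_right)) hF
      (integrableOn_kernel x hε (hN.inter (measurableSet_far ε x)) fun y hy => le_of_lt hy.2)
      (integrableOn_kernel x hε hF fun y hy => le_of_lt hy.2), hfar]
  have hi : ∀ S, MeasurableSet S → Integrable (fun x => bump z t x • trunc n ν ε S x) ν := by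
    intro S hS
    refine Integrable.of_bound ((continuous_bump z t).aestronglyMeasurable.smul
      (stronglyMeasurable_trunc ε hS).aestronglyMeasurable) bd (Eventually.of_forall fun x => ?_)
    rw [norm_smul, Real.norm_eq_abs, abs_of_nonneg (bump_mem_Icc z t x).1]
    exact (mul_le_of_le_one_left (norm_nonneg _) (bump_mem_Icc z t x).2).trans
      (norm_trunc_le hε hS x)
  set P := fun x => bump z t x • (∫ y in F, kernel n (x - y) ∂ν) with hP
  have hPi : Integrable P ν := by
    have : P = fun x => bump z t x • trunc n ν ε univ x - bump z t x • trunc n ν ε N x :=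
      funext fun x => by rw [hsplit x, hP, add_sub_cancel_left]
    rw [this]
    exact (hi _ MeasurableSet.univ).sub (hi _ measurableSet_ball)
  have hnear : ‖∫ x, bump z t x • trunc n ν ε N x ∂ν‖ ≤ (CR ^ 2 + 1) * K * 4 ^ n * t ^ n := by
    refine (norm_integral_le_integral_norm _).trans ?_
    have h1 : ∀ x, ‖bump z t x • trunc n ν ε N x‖ ≤
        ‖trunc n ν ε N x‖ ^ 2 + N.indicator 1 x := by
      intro x
      rw [norm_smul, Real.norm_eq_abs, abs_of_nonneg (bump_mem_Icc z t x).1]
      by_cases hx : x ∈ N
      · rw [indicator_of_mem hx, Pi.one_apply]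
        refine (mul_le_of_le_one_left (norm_nonneg _) (bump_mem_Icc z t x).2).trans ?_
        nlinarith [sq_nonneg (‖trunc n ν ε N x‖ - 1)]
      · rw [indicator_of_notMem hx, bump_eq_zero ht, zero_mul, add_zero]
        · positivity
        · simp only [N, Metric.mem_ball, not_lt] at hx
          linarith
    have hsq : Integrable (fun x => ‖trunc n ν ε N x‖ ^ 2) ν := by
      refine Integrable.of_bound (((stronglyMeasurable_trunc ε measurableSet_ball).norm.pow 2
        ).aestronglyMeasurable) (bd ^ 2) (Eventually.of_forall fun x => ?_)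
      rw [norm_pow, norm_norm]
      exact pow_le_pow_left₀ (norm_nonneg _) (norm_trunc_le hε measurableSet_ball x) 2
    have hind : Integrable (N.indicator (1 : E → ℝ)) ν :=
      (integrable_const _).indicator measurableSet_ball
    refine (integral_mono (hi _ measurableSet_ball).norm (hsq.add hind) h1).trans ?_
    rw [integral_add' hsq hind, integral_indicator_one measurableSet_ball]
    refine (add_le_add_left (hR _ measurableSet_ball) _).trans ?_
    calc CR ^ 2 * ν.real N + ν.real N = (CR ^ 2 + 1) * ν.real N := by ring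
      _ ≤ (CR ^ 2 + 1) * (K * (4 * t) ^ n) :=
          mul_le_mul_of_nonneg_left (hν z _ (by positivity)) (by positivity)
      _ = _ := by rw [mul_pow]; ring
  have hfar : ‖(∫ x, P x ∂ν) - m • G‖ ≤ m * (kerConst n * 2 ^ n * K) := by
    have e : (∫ x, P x ∂ν) - m • G = ∫ x, (P x - bump z t x • G) ∂ν := by
      rw [integral_sub hPi ((integrable_bump z t).smul_const G), integral_smul_const]
    rw [e]
    calc ‖∫ x, (P x - bump z t x • G) ∂ν‖
        ≤ ∫ x, bump z t x * (kerConst n * 2 ^ n * K) ∂ν := by
          refine norm_integral_le_of_norm_le ((integrable_bump z t).mul_const _)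
            (Eventually.of_forall fun x => ?_)
          rw [hP, ← smul_sub, norm_smul, Real.norm_eq_abs, abs_of_nonneg (bump_mem_Icc z t x).1]
          by_cases hx : bump z t x = 0
          · simp [hx]
          refine mul_le_mul_of_nonneg_left ?_ (bump_mem_Icc z t x).1
          have hd := (hφ x hx).le
          have hFm : MeasurableSet F := hNc ▸ (measurableSet_ball (x := z) (ε := 4 * t)).compl
          rw [← integral_sub (integrableOn_kernel x (t := 2 * t) (by positivity) hFm fun y hy => by
              have := dist_triangle z x y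
              rw [dist_comm z x] at this
              simp only [F, mem_setOf_eq] at hy
              linarith)
            (integrableOn_kernel z (t := 4 * t) (by positivity) hFm fun y hy => hy)]
          calc ‖∫ y in F, (kernel n (x - y) - kernel n (z - y)) ∂ν‖
              ≤ ∫ y in F, kerConst n * (2 * t) * (dist z y ^ (n + 1))⁻¹ ∂ν := by
                refine norm_integral_le_of_norm_le ((integrableOn_inv_pow z (t := 4 * t)
                  (by positivity) _ hFm fun y hy => hy).const_mul _) ?_
                refine (ae_restrict_iff' hFm).2 (Eventually.of_forall fun y hy => ?_)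
                simp only [F, mem_setOf_eq] at hy
                have hzy : ‖z - y‖ = dist z y := (dist_eq_norm z y).symm
                have hxz : ‖(x - y) - (z - y)‖ = dist x z := by
                  rw [sub_sub_sub_cancel_right, dist_eq_norm]
                refine (norm_kernel_sub_le n (fun h0 => ?_) ?_).trans ?_
                · rw [h0, norm_zero] at hzy; linarith
                · rw [hxz, hzy]; linarith
                · rw [hxz, hzy, div_eq_mul_inv]
                  refine mul_le_mul_of_nonneg_right (mul_le_mul_of_nonneg_left hd ?_) (by positivity)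
                  unfold kerConst; positivity
            _ ≤ kerConst n * (2 * t) * (2 ^ (n + 1) * K / (4 * t)) := by
                rw [integral_const_mul]
                refine mul_le_mul_of_nonneg_left (outer_integral_le hν hK z (by positivity)) ?_
                unfold kerConst; positivity
            _ = _ := by field_simp; ring
      _ = _ := integral_mul_const _ _
  rw [show (∫ x, bump z t x • trunc n ν ε univ x ∂ν) =
      (∫ x, bump z t x • trunc n ν ε N x ∂ν) + ∫ x, P x ∂ν by
    rw [← integral_add (hi _ measurableSet_ball) hPi]; exact integral_congr_ae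
      (Eventually.of_forall hsplit), smul_add, add_sub_assoc]
  refine (norm_add_le _ _).trans (add_le_add ?_ ?_)
  · rw [norm_smul, norm_inv, Real.norm_eq_abs, abs_of_pos hm0, inv_mul_le_iff₀ hm0]
    refine hnear.trans ?_
    calc (CR ^ 2 + 1) * K * 4 ^ n * t ^ n = κ * t ^ n * ((CR ^ 2 + 1) * K * 4 ^ n / κ) := by
          field_simp
      _ ≤ _ := mul_le_mul_of_nonneg_right hm (by positivity)
  · rw [show m⁻¹ • (∫ x, P x ∂ν) - G = m⁻¹ • ((∫ x, P x ∂ν) - m • G) by
      rw [smul_sub, inv_smul_smul₀ hm0.ne'], norm_smul, norm_inv, Real.norm_eq_abs, abs_of_pos hm0,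
      inv_mul_le_iff₀ hm0]
    exact hfar

end Finite

/-- The sum of `2^-|g-h|` over pairs below `M`. -/
lemma sum_half_pow_dist_le : ∀ M : ℕ,
    ∑ g ∈ Finset.range M, ∑ h ∈ Finset.range M, (1 / 2 : ℝ) ^ Nat.dist g h ≤ 3 * (M : ℝ) := by
  intro M
  induction M with
  | zero => simp
  | succ M ih =>
    have h1 : ∀ g ∈ Finset.range M, (1 / 2 : ℝ) ^ Nat.dist g M = (1 / 2) ^ (M - g) := fun g hg => by
      rw [Nat.dist_eq_sub_of_le (Finset.mem_range.1 hg).le]
    have h2 : ∑ g ∈ Finset.range M, (1 / 2 : ℝ) ^ Nat.dist g M ≤ 1 := by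
      rw [Finset.sum_congr rfl h1, ← Finset.sum_range_reflect]
      calc ∑ j ∈ Finset.range M, (1 / 2 : ℝ) ^ (M - (M - 1 - j))
          = 1 / 2 * ∑ j ∈ Finset.range M, (1 / 2 : ℝ) ^ j := by
            rw [Finset.mul_sum]
            refine Finset.sum_congr rfl fun j hj => ?_
            rw [← pow_succ']
            congr 1
            have := Finset.mem_range.1 hj
            omega
        _ ≤ 1 / 2 * 2 := mul_le_mul_of_nonneg_left (sum_geometric_two_le M) (by norm_num)
        _ = 1 := by norm_num
    have h3 : ∑ h ∈ Finset.range M, (1 / 2 : ℝ) ^ Nat.dist M h ≤ 1 := by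
      simpa [Nat.dist_comm] using h2
    rw [Finset.sum_range_succ]
    simp only [Finset.sum_range_succ, Finset.sum_add_distrib, Nat.dist_self, pow_zero]
    push_cast
    linarith

end

end Vale.Agent.P120
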