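import Vale.Agent.P120.Windows

/-!
# P120: the functions of one generation
-/

namespace Vale.Agent.P120

open MeasureTheory Set Filter
open scoped Topology RealInnerProductSpace

noncomputable section

variable {E : Type*} [NormedAddCommGroup E] [InnerProductSpace ℝ E] [MeasurableSpace E]
  [BorelSpace E] [FiniteDimensional ℝ E] {n : ℕ} {μ : Measure E}

/-- Facts about one normalised bump difference. -/
lemma psi_props {ν : Measure E} [IsFiniteMeasure ν] {z : E} {a b σ θ κ : ℝ}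
    (hθ : 0 < θ) (hσ : 0 < σ) (ha : θ * σ ≤ a) (hab : a < b) (hb : b ≤ σ / 4) (hκ : 0 < κ)
    (hlow : ∀ t, 0 < t → t ≤ σ → κ * t ^ n ≤ ν.real (Metric.ball z t)) :
    (∀ y, |psi ν z a b y| ≤ (κ * (θ * σ / 4) ^ n)⁻¹) ∧
    (∀ u v, |psi ν z a b u - psi ν z a b v| ≤
      8 / (θ * σ) * (κ * (θ * σ / 4) ^ n)⁻¹ * dist u v) ∧
    (∀ y, σ / 8 ≤ dist y z → psi ν z a b y = 0) ∧ Continuous (psi ν z a b) ∧
    ∫ y, psi ν z a b y ∂ν = 0 ∧ ∫ y, |psi ν z a b y| ∂ν ≤ 2 := by
  have ha0 : 0 < a := lt_of_lt_of_le (by positivity) ha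
  set B := (κ * (θ * σ / 4) ^ n)⁻¹
  have key : ∀ t, θ * σ / 4 ≤ t → t ≤ σ → 0 < ∫ y, bump z t y ∂ν ∧
      (∫ y, bump z t y ∂ν)⁻¹ ≤ B := by
    intro t ht1 ht2
    have ht : 0 < t := lt_of_lt_of_le (by positivity) ht1
    have h1 : κ * (θ * σ / 4) ^ n ≤ ∫ y, bump z t y ∂ν :=
      (mul_le_mul_of_nonneg_left (pow_le_pow_left₀ (by positivity) ht1 _) hκ.le).trans
        ((hlow t ht ht2).trans (le_integral_bump z ht))
    exact ⟨lt_of_lt_of_le (by positivity) h1, inv_anti₀ (by positivity) h1⟩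
  obtain ⟨hma, hBa⟩ := key (a / 4) (by linarith) (by linarith)
  obtain ⟨hmb, hBb⟩ := key (b / 4) (by linarith) (by linarith)
  have hB : 0 ≤ B := by positivity
  refine ⟨fun y => ?_, fun u v => ?_, fun y hy => ?_, ?_, ?_, ?_⟩
  · have h1 : ∀ t m, 0 < m → m⁻¹ ≤ B → 0 ≤ bump z t y / m ∧ bump z t y / m ≤ B := fun t m hm hmB =>
      ⟨div_nonneg (bump_mem_Icc z t y).1 hm.le, (div_le_div_of_nonneg_right (bump_mem_Icc z t y).2
        hm.le).trans (by rwa [one_div])⟩
    have p1 := h1 (a / 4) _ hma hBa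
    have p2 := h1 (b / 4) _ hmb hBb
    unfold psi
    rw [abs_le]
    constructor <;> linarith [p1.1, p1.2, p2.1, p2.2]
  · have h1 : ∀ t m, θ * σ / 4 ≤ t → 0 < m → m⁻¹ ≤ B →
        |bump z t u / m - bump z t v / m| ≤ 4 / (θ * σ) * B * dist u v := by
      intro t m ht hm hmB
      have ht0 : 0 < t := lt_of_lt_of_le (by positivity) ht
      rw [← sub_div, abs_div, abs_of_pos hm, div_eq_mul_inv]
      calc |bump z t u - bump z t v| * m⁻¹ ≤ dist u v / (θ * σ / 4) * B :=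
            mul_le_mul ((abs_bump_sub_le ht0 u v).trans
              (div_le_div_of_nonneg_left dist_nonneg (by positivity) ht)) hmB (by positivity)
              (by positivity)
        _ = _ := by field_simp
    have q1 := abs_le.1 (h1 (a / 4) _ (by linarith) hma hBa)
    have q2 := abs_le.1 (h1 (b / 4) _ (by linarith) hmb hBb)
    rw [show 8 / (θ * σ) * B * dist u v = 2 * (4 / (θ * σ) * B * dist u v) by ring, abs_le]
    unfold psi
    constructor <;> linarith [q1.1, q1.2, q2.1, q2.2]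
  · unfold psi
    rw [bump_eq_zero (by linarith) (by linarith), bump_eq_zero (by linarith) (by linarith)]
    simp
  · exact ((continuous_bump z _).div_const _).sub ((continuous_bump z _).div_const _)
  · unfold psi
    rw [integral_sub ((integrable_bump z _).div_const _) ((integrable_bump z _).div_const _),
      integral_div, integral_div, div_self hma.ne', div_self hmb.ne', sub_self]
  · have i1 : Integrable (fun y => bump z (a / 4) y / ∫ y, bump z (a / 4) y ∂ν) ν :=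
      (integrable_bump z _).div_const _
    have i2 : Integrable (fun y => bump z (b / 4) y / ∫ y, bump z (b / 4) y ∂ν) ν :=
      (integrable_bump z _).div_const _
    calc ∫ y, |psi ν z a b y| ∂ν
        ≤ ∫ y, (bump z (a / 4) y / ∫ y, bump z (a / 4) y ∂ν) +
            (bump z (b / 4) y / ∫ y, bump z (b / 4) y ∂ν) ∂ν := by
          refine integral_mono (i1.sub i2).abs (i1.add i2) fun y => (abs_sub _ _).trans (le_of_eq ?_)
          rw [abs_of_nonneg (div_nonneg (bump_mem_Icc z _ y).1 hma.le),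
            abs_of_nonneg (div_nonneg (bump_mem_Icc z _ y).1 hmb.le)]
      _ = 2 := by
          rw [integral_add i1 i2, integral_div, integral_div, div_self hma.ne', div_self hmb.ne']
          norm_num

/-- A finite separated set whose doubled balls cover. -/
lemma exists_sep {S : Set E} {σ : ℝ} {N : ℕ}
    (hN : ∀ Z : Finset E, ↑Z ⊆ S → (↑Z : Set E).Pairwise (fun u v => 2 * σ ≤ dist u v) → Z.card ≤ N) :
    ∃ Z : Finset E, ↑Z ⊆ S ∧ (↑Z : Set E).Pairwise (fun u v => 2 * σ ≤ dist u v) ∧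
      ∀ x ∈ S, x ∈ Z ∨ ∃ z ∈ Z, dist x z < 2 * σ := by
  classical
  set P : ℕ → Prop := fun k => ∃ Z : Finset E, ↑Z ⊆ S ∧
    (↑Z : Set E).Pairwise (fun u v => 2 * σ ≤ dist u v) ∧ Z.card = k
  have h0 : P 0 := ⟨∅, by simp, by simp, rfl⟩
  obtain ⟨Z, hZS, hZp, hcard⟩ : P (Nat.findGreatest P N) := Nat.findGreatest_spec (Nat.zero_le N) h0
  refine ⟨Z, hZS, hZp, fun x hx => ?_⟩
  by_contra hne
  simp only [not_or, not_exists, not_and, not_lt] at hne
  obtain ⟨hxZ, hfar⟩ := hne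
  have hP : P (Z.card + 1) := by
    refine ⟨insert x Z, ?_, ?_, Finset.card_insert_of_notMem hxZ⟩
    · rw [Finset.coe_insert]; exact insert_subset hx hZS
    · rw [Finset.coe_insert]
      exact hZp.insert fun z hz _ => ⟨hfar z hz, by rw [dist_comm]; exact hfar z hz⟩
  obtain ⟨Z', h1, h2, h3⟩ := hP
  have := Nat.le_findGreatest (P := P) (h3 ▸ hN Z' h1 h2) ⟨Z', h1, h2, h3⟩
  omega

/-- The data of one generation: separated centres, a window in each ball, lower mass bounds. -/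
def GenData (n : ℕ) (ν : Measure E) (κ θ σ : ℝ) (Z : Finset E) (zc : E → E) (ac bc : E → ℝ) :
    Prop :=
  0 < θ ∧ 0 < κ ∧ 0 < σ ∧ (↑Z : Set E).Pairwise (fun u v => 2 * σ ≤ dist u v) ∧
    ∀ z ∈ Z, dist (zc z) z ≤ σ / 2 ∧ θ * σ ≤ ac z ∧ ac z < bc z ∧ bc z ≤ σ / 4 ∧
      ∀ t, 0 < t → t ≤ σ → κ * t ^ n ≤ ν.real (Metric.ball (zc z) t)

/-- The unit vector of a window. -/
def dir (n : ℕ) (ν : Measure E) (z : E) (a b : ℝ) : E := ‖win n ν z a b‖⁻¹ • win n ν z a b

/-- One term of a generation. -/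
def term (n : ℕ) (ν : Measure E) (σ : ℝ) (zc : E → E) (ac bc : E → ℝ) (z y : E) : E :=
  (σ ^ n * psi ν (zc z) (ac z) (bc z) y) • dir n ν (zc z) (ac z) (bc z)

/-- The function of one generation. -/
def gen (n : ℕ) (ν : Measure E) (σ : ℝ) (Z : Finset E) (zc : E → E) (ac bc : E → ℝ) (y : E) : E :=
  ∑ z ∈ Z, term n ν σ zc ac bc z y

lemma norm_dir_le (ν : Measure E) (z : E) (a b : ℝ) : ‖dir n ν z a b‖ ≤ 1 := by
  rw [dir, norm_smul, norm_inv, norm_norm]
  exact inv_mul_le_one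

lemma inner_dir (ν : Measure E) (z : E) (a b : ℝ) :
    ⟪dir n ν z a b, win n ν z a b⟫ = ‖win n ν z a b‖ := by
  rw [dir, real_inner_smul_left, real_inner_self_eq_norm_sq, sq, ← mul_assoc]
  rcases eq_or_ne ‖win n ν z a b‖ 0 with h | h
  · simp [h]
  · rw [inv_mul_cancel₀ h, one_mul]

section Gen

variable {ν : Measure E} [IsFiniteMeasure ν] {κ θ σ : ℝ} {Z : Finset E} {zc : E → E}
  {ac bc : E → ℝ}

lemma GenData.props (h : GenData n ν κ θ σ Z zc ac bc) {z : E} (hz : z ∈ Z) :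
    (∀ y, |psi ν (zc z) (ac z) (bc z) y| ≤ (κ * (θ * σ / 4) ^ n)⁻¹) ∧
    (∀ u v, |psi ν (zc z) (ac z) (bc z) u - psi ν (zc z) (ac z) (bc z) v| ≤
      8 / (θ * σ) * (κ * (θ * σ / 4) ^ n)⁻¹ * dist u v) ∧
    (∀ y, σ ≤ dist y z → psi ν (zc z) (ac z) (bc z) y = 0) ∧
    Continuous (psi ν (zc z) (ac z) (bc z)) ∧
    ∫ y, psi ν (zc z) (ac z) (bc z) y ∂ν = 0 ∧
    ∫ y, |psi ν (zc z) (ac z) (bc z) y| ∂ν ≤ 2 := by
  obtain ⟨hθ, hκ, hσ, -, hd⟩ := h
  obtain ⟨hdist, ha, hab, hb, hlow⟩ := hd z hz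
  obtain ⟨p1, p2, p3, p4, p5, p6⟩ := psi_props hθ hσ ha hab hb hκ hlow
  refine ⟨p1, p2, fun y hy => p3 y ?_, p4, p5, p6⟩
  linarith [dist_triangle y (zc z) z]

lemma GenData.scale (h : GenData n ν κ θ σ Z zc ac bc) :
    σ ^ n * (κ * (θ * σ / 4) ^ n)⁻¹ = (κ * (θ / 4) ^ n)⁻¹ := by
  obtain ⟨-, -, hσ, -, -⟩ := h
  rw [show θ * σ / 4 = θ / 4 * σ by ring, mul_pow, ← mul_assoc κ, mul_inv]
  rw [mul_left_comm, mul_inv_cancel₀ (pow_pos hσ n).ne', mul_one]

lemma GenData.continuous_term (h : GenData n ν κ θ σ Z zc ac bc) {z : E} (hz : z ∈ Z) :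
    Continuous (term n ν σ zc ac bc z) :=
  (continuous_const.mul (h.props hz).2.2.2.1).smul continuous_const

lemma GenData.continuous_gen (h : GenData n ν κ θ σ Z zc ac bc) :
    Continuous (gen n ν σ Z zc ac bc) :=
  continuous_finsetSum _ fun _ hz => h.continuous_term hz

lemma GenData.norm_term_le (h : GenData n ν κ θ σ Z zc ac bc) {z : E} (hz : z ∈ Z) (y : E) :
    ‖term n ν σ zc ac bc z y‖ ≤ (κ * (θ / 4) ^ n)⁻¹ := by
  have hσ : 0 < σ ^ n := pow_pos h.2.2.1 n
  rw [← h.scale, term, norm_smul, Real.norm_eq_abs, abs_mul, abs_of_pos hσ]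
  exact (mul_le_of_le_one_right (by positivity) (norm_dir_le _ _ _ _)).trans
    (mul_le_mul_of_nonneg_left ((h.props hz).1 y) hσ.le)

lemma GenData.uniq (h : GenData n ν κ θ σ Z zc ac bc) {y z₁ z₂ : E} (h1 : z₁ ∈ Z) (h2 : z₂ ∈ Z)
    (d1 : dist y z₁ < σ) (d2 : dist y z₂ < σ) : z₁ = z₂ := by
  by_contra hne
  linarith [h.2.2.2.1 h1 h2 hne, dist_triangle_left z₁ z₂ y]

lemma GenData.term_eq_zero (h : GenData n ν κ θ σ Z zc ac bc) {z y : E} (hz : z ∈ Z)
    (hy : σ ≤ dist y z) : term n ν σ zc ac bc z y = 0 := by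
  rw [term, (h.props hz).2.2.1 y hy, mul_zero, zero_smul]

lemma GenData.norm_gen_le (h : GenData n ν κ θ σ Z zc ac bc) (y : E) :
    ‖gen n ν σ Z zc ac bc y‖ ≤ (κ * (θ / 4) ^ n)⁻¹ := by
  unfold gen
  by_cases hex : ∃ z ∈ Z, dist y z < σ
  · obtain ⟨z, hz, hd⟩ := hex
    rw [Finset.sum_eq_single_of_mem z hz fun w hw hwz =>
      h.term_eq_zero hw (not_lt.1 fun hlt => hwz (h.uniq hw hz hlt hd))]
    exact h.norm_term_le hz y
  · simp only [not_exists, not_and, not_lt] at hex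
    rw [Finset.sum_eq_zero fun w hw => h.term_eq_zero hw (hex w hw), norm_zero]
    obtain ⟨hθ, hκ, -⟩ := h
    positivity

lemma GenData.norm_gen_sub_le (h : GenData n ν κ θ σ Z zc ac bc) (u v : E) :
    ‖gen n ν σ Z zc ac bc u - gen n ν σ Z zc ac bc v‖ ≤
      16 / θ * (κ * (θ / 4) ^ n)⁻¹ / σ * dist u v := by
  classical
  have hσ := h.2.2.1
  have hθ := h.1
  have hκ := h.2.1
  have hterm : ∀ z ∈ Z, ‖term n ν σ zc ac bc z u - term n ν σ zc ac bc z v‖ ≤
      8 / θ * (κ * (θ / 4) ^ n)⁻¹ / σ * dist u v := by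
    intro z hz
    rw [term, term, ← sub_smul, norm_smul, ← mul_sub, Real.norm_eq_abs, abs_mul,
      abs_of_pos (pow_pos hσ n)]
    refine ((mul_le_of_le_one_right (by positivity) (norm_dir_le _ _ _ _)).trans
      (mul_le_mul_of_nonneg_left ((h.props hz).2.1 u v) (pow_pos hσ n).le)).trans (le_of_eq ?_)
    rw [← h.scale]
    field_simp
  set Zu := Z.filter fun z => dist u z < σ
  set Zv := Z.filter fun z => dist v z < σ
  have hU : ∀ y, (Z.filter fun z => dist y z < σ).card ≤ 1 := fun y =>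
    Finset.card_le_one.2 fun p hp q hq => h.uniq (Finset.mem_filter.1 hp).1
      (Finset.mem_filter.1 hq).1 (Finset.mem_filter.1 hp).2 (Finset.mem_filter.1 hq).2
  unfold gen
  rw [← Finset.sum_sub_distrib, ← Finset.sum_subset (s₁ := Zu ∪ Zv) (s₂ := Z)
    (Finset.union_subset (Finset.filter_subset _ _) (Finset.filter_subset _ _)) fun z hz hn => by
      simp only [Zu, Zv, Finset.mem_union, Finset.mem_filter, hz, true_and, not_or, not_lt] at hn
      rw [h.term_eq_zero hz hn.1, h.term_eq_zero hz hn.2, sub_self]]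
  refine (norm_sum_le _ _).trans ((Finset.sum_le_sum fun z hz => hterm z (by
    simp only [Zu, Zv, Finset.mem_union, Finset.mem_filter] at hz
    rcases hz with h | h <;> exact h.1)).trans ?_)
  rw [Finset.sum_const, nsmul_eq_mul]
  have h2 : ((Zu ∪ Zv).card : ℝ) ≤ 2 := by
    exact_mod_cast (Finset.card_union_le Zu Zv).trans (add_le_add (hU u) (hU v))
  refine (mul_le_mul_of_nonneg_right h2 (by positivity)).trans (le_of_eq ?_)
  ring

lemma GenData.abs_integral_inner_le (h : GenData n ν κ θ σ Z zc ac bc) {f : E → E} {B L : ℝ}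
    (hfc : Continuous f) (hfb : ∀ y, ‖f y‖ ≤ B) (hfl : ∀ u v, ‖f u - f v‖ ≤ L * dist u v)
    (hL : 0 ≤ L) :
    |∫ y, ⟪f y, gen n ν σ Z zc ac bc y⟫ ∂ν| ≤ (∑ _ ∈ Z, σ ^ n) * (2 * (L * σ)) := by
  have hσ := h.2.2.1
  have hi : ∀ w ∈ Z, Integrable (fun y => ⟪f y, term n ν σ zc ac bc w y⟫) ν := fun w hw =>
    Integrable.of_bound (hfc.inner (h.continuous_term hw)).aestronglyMeasurable
      (B * (κ * (θ / 4) ^ n)⁻¹) (Eventually.of_forall fun y => (norm_inner_le_norm _ _).trans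
        (mul_le_mul (hfb y) (h.norm_term_le hw y) (norm_nonneg _)
          ((norm_nonneg _).trans (hfb y))))
  simp only [gen, inner_sum]
  rw [integral_finsetSum _ hi, Finset.sum_mul]
  refine (Finset.abs_sum_le_sum_abs _ _).trans (Finset.sum_le_sum fun w hw => ?_)
  obtain ⟨hb, -, hsupp, hcont, hz0, h1⟩ := h.props hw
  set e := dir n ν (zc w) (ac w) (bc w) with he
  set p := psi ν (zc w) (ac w) (bc w) with hp
  have hpi : Integrable p ν := Integrable.of_bound hcont.aestronglyMeasurable _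
    (Eventually.of_forall fun y => by rw [Real.norm_eq_abs]; exact hb y)
  have hi2 : Integrable (fun y => p y * ⟪f y, e⟫) ν :=
    hpi.mul_bdd (hfc.inner continuous_const).aestronglyMeasurable (c := B)
      (Eventually.of_forall fun y => (norm_inner_le_norm _ _).trans
        ((mul_le_of_le_one_right (norm_nonneg _) (norm_dir_le _ _ _ _)).trans (hfb y)))
  have hrw : ∫ y, ⟪f y, term n ν σ zc ac bc w y⟫ ∂ν =
      σ ^ n * ∫ y, p y * (⟪f y, e⟫ - ⟪f w, e⟫) ∂ν := by
    simp only [term, real_inner_smul_right, mul_assoc, ← he, ← hp, mul_sub]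
    rw [integral_const_mul, integral_sub hi2 (hpi.mul_const _), integral_mul_const, hz0,
      zero_mul, sub_zero]
  rw [hrw, abs_mul, abs_of_pos (pow_pos hσ n)]
  refine mul_le_mul_of_nonneg_left (abs_integral_le_integral_abs.trans ?_) (pow_pos hσ n).le
  calc ∫ y, |p y * (⟪f y, e⟫ - ⟪f w, e⟫)| ∂ν ≤ ∫ y, |p y| * (L * σ) ∂ν := by
        refine integral_mono_of_nonneg (Eventually.of_forall fun y => abs_nonneg _)
          (hpi.abs.mul_const _) (Eventually.of_forall fun y => ?_)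
        simp only [abs_mul]
        by_cases hd : σ ≤ dist y w
        · rw [hsupp y hd, abs_zero, zero_mul, zero_mul]
        refine mul_le_mul_of_nonneg_left ?_ (abs_nonneg _)
        rw [← inner_sub_left]
        refine (abs_real_inner_le_norm _ _).trans ((mul_le_of_le_one_right (norm_nonneg _)
          (norm_dir_le _ _ _ _)).trans ((hfl y w).trans ?_))
        exact mul_le_mul_of_nonneg_left (not_le.1 hd).le hL
    _ ≤ 2 * (L * σ) := by
        rw [integral_mul_const]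
        exact mul_le_mul_of_nonneg_right h1 (by positivity)

/-- The pairing of one term with the truncated transform. -/
lemma GenData.le_integral_term (h : GenData n ν κ θ σ Z zc ac bc) {K CR ε A : ℝ}
    (hν : ∀ z t, 0 < t → ν.real (Metric.ball z t) ≤ K * t ^ n) (hK : 0 ≤ K) (hε : 0 < ε)
    (hR : ∀ S, MeasurableSet S → ∫ x, ‖trunc n ν ε S x‖ ^ 2 ∂ν ≤ CR ^ 2 * ν.real S)
    (hεσ : ε < θ * σ / 2) {z : E} (hz : z ∈ Z) (hA : A ≤ ‖win n ν (zc z) (ac z) (bc z)‖) :
    σ ^ n * (A - 2 * ((CR ^ 2 + 1) * K * 4 ^ n / κ + kerConst n * 2 ^ n * K)) ≤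
      ∫ y, ⟪term n ν σ zc ac bc z y, trunc n ν ε univ y⟫ ∂ν := by
  obtain ⟨hθ, hκ, hσ, -, hd⟩ := h
  obtain ⟨-, ha, hab, hb, hlow⟩ := hd z hz
  set a := ac z
  set b := bc z
  set z' := zc z
  set T := trunc n ν ε univ
  have hTm : StronglyMeasurable T := stronglyMeasurable_trunc ε MeasurableSet.univ
  have ha0 : 0 < a := lt_of_lt_of_le (mul_pos hθ hσ) ha
  have hit : ∀ t, Integrable (fun y => bump z' t y • T y) ν := fun t =>
    Integrable.of_bound ((continuous_bump z' t).aestronglyMeasurable.smul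
      hTm.aestronglyMeasurable) (ν.real univ * (ε ^ n)⁻¹) (Eventually.of_forall fun y => by
        rw [norm_smul, Real.norm_eq_abs, abs_of_nonneg (bump_mem_Icc z' t y).1]
        exact (mul_le_of_le_one_left (norm_nonneg _) (bump_mem_Icc z' t y).2).trans
          (norm_trunc_le hε MeasurableSet.univ y))
  have k : ∀ t, a / 4 ≤ t → t ≤ σ → ‖(∫ y, bump z' t y ∂ν)⁻¹ • (∫ y, bump z' t y • T y ∂ν) -
      ∫ y in {y | 4 * t ≤ dist z' y}, kernel n (z' - y) ∂ν‖ ≤
        (CR ^ 2 + 1) * K * 4 ^ n / κ + kerConst n * 2 ^ n * K := fun t ht1 ht2 =>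
    norm_avg_trunc_sub_le hν hK hε hR z' (by linarith) (by linarith) hκ (hlow t (by linarith) ht2)
  have ka := k (a / 4) le_rfl (by linarith)
  have kb := k (b / 4) (by linarith) (by linarith)
  rw [show 4 * (a / 4) = a by ring] at ka
  rw [show 4 * (b / 4) = b by ring] at kb
  set ma := ∫ y, bump z' (a / 4) y ∂ν with hma
  set mb := ∫ y, bump z' (b / 4) y ∂ν with hmb
  set Ia := ∫ y, bump z' (a / 4) y • T y ∂ν
  set Ib := ∫ y, bump z' (b / 4) y • T y ∂ν
  set Fa := ∫ y in {y | a ≤ dist z' y}, kernel n (z' - y) ∂ν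
  set Fb := ∫ y in {y | b ≤ dist z' y}, kernel n (z' - y) ∂ν
  have hm : ∀ t : ℝ, MeasurableSet {y : E | t ≤ dist z' y} := fun t =>
    measurableSet_le measurable_const (continuous_const.dist continuous_id).measurable
  have hwineq : Fa - Fb = win n ν z' a b := by
    have hu : {y : E | a ≤ dist z' y} = annulus z' a b ∪ {y : E | b ≤ dist z' y} := by
      ext y
      simp only [annulus, mem_union, mem_setOf_eq]
      constructor
      · intro h; by_cases h' : dist z' y < b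
        · exact Or.inl ⟨h, h'⟩
        · exact Or.inr (not_lt.1 h')
      · rintro (h | h)
        · exact h.1
        · linarith
    simp only [Fa, Fb, win]
    have i1 : IntegrableOn (fun y => kernel n (z' - y)) (annulus z' a b) ν :=
      integrableOn_kernel z' ha0 (measurableSet_annulus z' a b) fun y hy => hy.1
    have i2 : IntegrableOn (fun y => kernel n (z' - y)) {y : E | b ≤ dist z' y} ν :=
      integrableOn_kernel z' (ha0.trans hab) (hm b) fun y hy => hy
    have hdis : Disjoint (annulus z' a b) {y : E | b ≤ dist z' y} :=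
      Set.disjoint_left.2 fun y h1 h2 => absurd h2 (not_le.2 h1.2)
    rw [hu, setIntegral_union hdis (hm b) i1 i2, add_sub_cancel_right]
  have hrw : ∀ y, ⟪term n ν σ zc ac bc z y, T y⟫ = σ ^ n * ⟪dir n ν z' a b,
      ma⁻¹ • (bump z' (a / 4) y • T y) - mb⁻¹ • (bump z' (b / 4) y • T y)⟫ := fun y => by
    simp only [term, psi, real_inner_smul_left, inner_sub_right, real_inner_smul_right, ← hma,
      ← hmb]
    ring
  simp_rw [hrw]
  rw [integral_const_mul]
  refine mul_le_mul_of_nonneg_left ?_ (pow_pos hσ n).le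
  have e1 : ∫ y, ⟪dir n ν z' a b,
      ma⁻¹ • (bump z' (a / 4) y • T y) - mb⁻¹ • (bump z' (b / 4) y • T y)⟫ ∂ν =
      ⟪dir n ν z' a b, win n ν z' a b + ((ma⁻¹ • Ia - Fa) - (mb⁻¹ • Ib - Fb))⟫ := by
    have i1 : Integrable (fun y => ma⁻¹ • (bump z' (a / 4) y • T y)) ν := (hit (a / 4)).smul ma⁻¹
    have i2 : Integrable (fun y => mb⁻¹ • (bump z' (b / 4) y • T y)) ν := (hit (b / 4)).smul mb⁻¹
    have i3 : Integrable (fun y => ma⁻¹ • (bump z' (a / 4) y • T y) -
        mb⁻¹ • (bump z' (b / 4) y • T y)) ν := i1.sub i2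
    rw [integral_inner i3, integral_sub i1 i2, integral_smul, integral_smul, ← hwineq]
    congr 1
    abel
  rw [e1, inner_add_right, inner_dir]
  have herr := (abs_real_inner_le_norm (dir n ν z' a b) _).trans
    ((mul_le_of_le_one_left (norm_nonneg _) (norm_dir_le ν z' a b)).trans
      ((norm_sub_le _ _).trans (add_le_add ka kb)))
  linarith [abs_le.1 herr]

lemma GenData.le_integral_gen (h : GenData n ν κ θ σ Z zc ac bc) {K CR ε A : ℝ}
    (hν : ∀ z t, 0 < t → ν.real (Metric.ball z t) ≤ K * t ^ n) (hK : 0 ≤ K) (hε : 0 < ε)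
    (hR : ∀ S, MeasurableSet S → ∫ x, ‖trunc n ν ε S x‖ ^ 2 ∂ν ≤ CR ^ 2 * ν.real S)
    (hεσ : ε < θ * σ / 2) (hA : ∀ z ∈ Z, A ≤ ‖win n ν (zc z) (ac z) (bc z)‖) :
    (∑ _ ∈ Z, σ ^ n) * (A - 2 * ((CR ^ 2 + 1) * K * 4 ^ n / κ + kerConst n * 2 ^ n * K)) ≤
      ∫ y, ⟪gen n ν σ Z zc ac bc y, trunc n ν ε univ y⟫ ∂ν := by
  simp only [gen, sum_inner]
  rw [integral_finsetSum _ fun z hz => Integrable.of_bound
    ((h.continuous_term hz).aestronglyMeasurable.inner
      (stronglyMeasurable_trunc ε MeasurableSet.univ).aestronglyMeasurable)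
    ((κ * (θ / 4) ^ n)⁻¹ * (ν.real univ * (ε ^ n)⁻¹))
    (Eventually.of_forall fun y => (norm_inner_le_norm _ _).trans
      (mul_le_mul (h.norm_term_le hz y) (norm_trunc_le hε MeasurableSet.univ y) (norm_nonneg _)
        (by have := h.1; have := h.2.1; positivity))), Finset.sum_mul]
  exact Finset.sum_le_sum fun z hz => h.le_integral_term hν hK hε hR hεσ hz (hA z hz)

end Gen

/-- Almost orthogonal functions cannot all pair well with a function of bounded square norm. -/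
lemma card_mul_le_of_almost_orth {ν : Measure E} [IsFiniteMeasure ν] {G : ℕ → E → E} {T : E → E}
    {M : ℕ} {c Q B D NT lam : ℝ} (hGc : ∀ g, g < M → Continuous (G g))
    (hGb : ∀ g, g < M → ∀ y, ‖G g y‖ ≤ B) (hTm : StronglyMeasurable T) (hTb : ∀ y, ‖T y‖ ≤ D)
    (hQ0 : 0 ≤ Q)
    (hQ : ∀ g, g < M → ∀ h, h < M → ∫ y, ⟪G g y, G h y⟫ ∂ν ≤ Q * (1 / 2) ^ Nat.dist g h)
    (hc : ∀ g, g < M → c ≤ ∫ y, ⟪G g y, T y⟫ ∂ν) (hNT : ∫ y, ‖T y‖ ^ 2 ∂ν ≤ NT)
    (hlam : 0 < lam) :
    (M : ℝ) * c ≤ lam / 2 * NT + 1 / (2 * lam) * (3 * M * Q) := by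
  set H : E → E := fun y => ∑ g ∈ Finset.range M, G g y with hH
  have hHc : Continuous H := continuous_finsetSum _ fun g hg => hGc g (Finset.mem_range.1 hg)
  have hHb : ∀ y, ‖H y‖ ≤ M * B := fun y => (norm_sum_le _ _).trans
    ((Finset.sum_le_sum fun g hg => hGb g (Finset.mem_range.1 hg) y).trans (by simp))
  have hGi : ∀ g, g < M → ∀ h, h < M → Integrable (fun y => ⟪G g y, G h y⟫) ν := fun g hg h hh =>
    Integrable.of_bound ((hGc g hg).inner (hGc h hh)).aestronglyMeasurable (B * B)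
      (Eventually.of_forall fun y => (norm_inner_le_norm _ _).trans
        (mul_le_mul (hGb g hg y) (hGb h hh y) (norm_nonneg _) ((norm_nonneg _).trans (hGb g hg y))))
  have hGT : ∀ g, g < M → Integrable (fun y => ⟪G g y, T y⟫) ν := fun g hg =>
    Integrable.of_bound ((hGc g hg).aestronglyMeasurable.inner hTm.aestronglyMeasurable) (B * D)
      (Eventually.of_forall fun y => (norm_inner_le_norm _ _).trans
        (mul_le_mul (hGb g hg y) (hTb y) (norm_nonneg _) ((norm_nonneg _).trans (hGb g hg y))))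
  have hHT : (M : ℝ) * c ≤ ∫ y, ⟪H y, T y⟫ ∂ν := by
    simp only [hH, sum_inner]
    rw [integral_finsetSum _ fun g hg => hGT g (Finset.mem_range.1 hg)]
    calc (M : ℝ) * c = ∑ _ ∈ Finset.range M, c := by simp
      _ ≤ _ := Finset.sum_le_sum fun g hg => hc g (Finset.mem_range.1 hg)
  have hHH : ∫ y, ‖H y‖ ^ 2 ∂ν ≤ 3 * M * Q := by
    have e : ∀ y, ‖H y‖ ^ 2 = ∑ g ∈ Finset.range M, ∑ h ∈ Finset.range M, ⟪G g y, G h y⟫ :=
      fun y => by
        rw [← real_inner_self_eq_norm_sq, hH, sum_inner]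
        exact Finset.sum_congr rfl fun g _ => inner_sum _ _ _
    simp_rw [e]
    rw [integral_finsetSum _ fun g hg => integrable_finsetSum _ fun h hh =>
      hGi g (Finset.mem_range.1 hg) h (Finset.mem_range.1 hh)]
    calc ∑ g ∈ Finset.range M, ∫ y, ∑ h ∈ Finset.range M, ⟪G g y, G h y⟫ ∂ν
        = ∑ g ∈ Finset.range M, ∑ h ∈ Finset.range M, ∫ y, ⟪G g y, G h y⟫ ∂ν :=
          Finset.sum_congr rfl fun g hg => integral_finsetSum _ fun h hh =>
            hGi g (Finset.mem_range.1 hg) h (Finset.mem_range.1 hh)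
      _ ≤ ∑ g ∈ Finset.range M, ∑ h ∈ Finset.range M, Q * (1 / 2) ^ Nat.dist g h :=
          Finset.sum_le_sum fun g hg => Finset.sum_le_sum fun h hh =>
            hQ g (Finset.mem_range.1 hg) h (Finset.mem_range.1 hh)
      _ ≤ Q * (3 * M) := by
          simp only [← Finset.mul_sum]
          exact mul_le_mul_of_nonneg_left (sum_half_pow_dist_le M) hQ0
      _ = _ := by ring
  have iT : Integrable (fun y => ‖T y‖ ^ 2) ν :=
    Integrable.of_bound (hTm.norm.pow 2).aestronglyMeasurable (D ^ 2)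
      (Eventually.of_forall fun y => by
        rw [norm_pow, norm_norm]; exact pow_le_pow_left₀ (norm_nonneg _) (hTb y) 2)
  have iH : Integrable (fun y => ‖H y‖ ^ 2) ν :=
    Integrable.of_bound (hHc.norm.pow 2).aestronglyMeasurable ((M * B) ^ 2)
      (Eventually.of_forall fun y => by
        rw [norm_pow, norm_norm]; exact pow_le_pow_left₀ (norm_nonneg _) (hHb y) 2)
  have iHT : Integrable (fun y => ⟪H y, T y⟫) ν := Integrable.of_bound
    (hHc.aestronglyMeasurable.inner hTm.aestronglyMeasurable) (M * B * D)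
    (Eventually.of_forall fun y => (norm_inner_le_norm _ _).trans
      (mul_le_mul (hHb y) (hTb y) (norm_nonneg _) ((norm_nonneg _).trans (hHb y))))
  calc (M : ℝ) * c ≤ ∫ y, ⟪H y, T y⟫ ∂ν := hHT
    _ ≤ ∫ y, lam / 2 * ‖T y‖ ^ 2 + 1 / (2 * lam) * ‖H y‖ ^ 2 ∂ν := by
        refine integral_mono iHT ((iT.const_mul _).add (iH.const_mul _)) fun y =>
          (real_inner_le_norm _ _).trans ?_
        have h := mul_nonneg (sq_nonneg (lam * ‖T y‖ - ‖H y‖))
          (show 0 ≤ 1 / (2 * lam) by positivity)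
        have e : lam / 2 * ‖T y‖ ^ 2 + 1 / (2 * lam) * ‖H y‖ ^ 2 - ‖H y‖ * ‖T y‖ =
            (lam * ‖T y‖ - ‖H y‖) ^ 2 * (1 / (2 * lam)) := by field_simp; ring
        linarith
    _ = lam / 2 * (∫ y, ‖T y‖ ^ 2 ∂ν) + 1 / (2 * lam) * ∫ y, ‖H y‖ ^ 2 ∂ν := by
        rw [integral_add (iT.const_mul _) (iH.const_mul _), integral_const_mul, integral_const_mul]
    _ ≤ _ := by gcongr

end

end Vale.Agent.P120
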