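import Vale.Agent.P120.Generations

/-!
# P120: in every ball some comparable ball has bounded windows
-/

namespace Vale.Agent.P120

open MeasureTheory Set Filter
open scoped Topology RealInnerProductSpace

noncomputable section

variable {E : Type*} [NormedAddCommGroup E] [InnerProductSpace ℝ E] [MeasurableSpace E]
  [BorelSpace E] [FiniteDimensional ℝ E] {n : ℕ} {μ : Measure E}

lemma win_restrict (z : E) (a b : ℝ) {U : Set E} (h : Metric.closedBall z b ⊆ U) :
    win n (μ.restrict U) z a b = win n μ z a b := by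
  rw [win, win, Measure.restrict_restrict (measurableSet_annulus _ _ _), inter_eq_left.2]
  intro y hy
  exact h (by rw [Metric.mem_closedBall, dist_comm]; exact hy.2.le)

/-- A separated net of the support in a small ball, with both bounds on the sum of `σ^n`. -/
lemma exists_net {C r σ : ℝ} (had : LocalAD μ n C r) {x : E} (hx : x ∈ μ.support) (hσ : 0 < σ)
    (hσr : σ ≤ r / 4) :
    ∃ Z : Finset E, ↑Z ⊆ μ.support ∩ Metric.closedBall x (r / 4) ∧
      (↑Z : Set E).Pairwise (fun u v => 2 * σ ≤ dist u v) ∧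
      C⁻¹ * (1 / 4) ^ n / (C * 2 ^ n * 2 ^ n) * r ^ n ≤ ∑ _ ∈ Z, σ ^ n ∧
      ∑ _ ∈ Z, σ ^ n ≤ C * (C * 2 ^ n) * r ^ n := by
  have hC0 : 0 < C := lt_of_lt_of_le one_pos had.1
  have hr : 0 < r := had.2.1
  set ν := μ.restrict (Metric.ball x r) with hνdef
  haveI : IsFiniteMeasure ν := isFiniteMeasure_restrict.2 (had.ne_top hx hr le_rfl)
  have hlowν : ∀ z ∈ μ.support, ∀ t, 0 < t → Metric.ball z t ⊆ Metric.ball x r → t ≤ r →
      C⁻¹ * t ^ n ≤ ν.real (Metric.ball z t) := by
    intro z hz t ht hsub htr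
    rw [hνdef, measureReal_restrict_apply measurableSet_ball, inter_eq_left.2 hsub]
    exact had.le_real hz ht htr
  set S0 := μ.support ∩ Metric.closedBall x (r / 4)
  have hcard : ∀ Z : Finset E, ↑Z ⊆ S0 →
      (↑Z : Set E).Pairwise (fun u v => 2 * σ ≤ dist u v) →
      (Z.card : ℝ) * (C⁻¹ * σ ^ n) ≤ C * r ^ n := by
    intro Z hZ hp
    calc (Z.card : ℝ) * (C⁻¹ * σ ^ n) = ∑ _ ∈ Z, C⁻¹ * σ ^ n := by simp
      _ ≤ ∑ z ∈ Z, ν.real (Metric.ball z σ) := Finset.sum_le_sum fun z hz =>
          hlowν z (hZ hz).1 _ hσ (fun w hw => by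
            rw [Metric.mem_ball] at hw ⊢
            linarith [dist_triangle w z x, Metric.mem_closedBall.1 (hZ hz).2]) (by linarith)
      _ = ν.real (⋃ z ∈ Z, Metric.ball z σ) := by
          rw [measureReal_biUnion_finset]
          · exact fun u hu v hv huv => Metric.ball_disjoint_ball (by linarith [hp hu hv huv])
          · exact fun z _ => measurableSet_ball
      _ ≤ ν.real univ := measureReal_mono (subset_univ _)
      _ ≤ _ := by
          rw [hνdef, measureReal_restrict_apply MeasurableSet.univ, univ_inter]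
          exact had.real_le hx hr le_rfl
  obtain ⟨Z, hZS, hZp, hZc⟩ := exists_sep (S := S0) (σ := σ)
    (N := ⌈C * r ^ n / (C⁻¹ * σ ^ n)⌉₊) fun Z hZ hp => by
      have hd : (Z.card : ℝ) ≤ C * r ^ n / (C⁻¹ * σ ^ n) :=
        (le_div_iff₀ (by positivity)).2 (hcard Z hZ hp)
      exact_mod_cast hd.trans (Nat.le_ceil _)
  refine ⟨Z, hZS, hZp, ?_, ?_⟩
  · have h1 : C⁻¹ * (r / 4) ^ n ≤ ν.real (Metric.ball x (r / 4)) :=
      hlowν x hx _ (by positivity) (Metric.ball_subset_ball (by linarith)) (by linarith)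
    have hnull : ν μ.supportᶜ = 0 :=
      nonpos_iff_eq_zero.1 ((Measure.restrict_apply_le _ _).trans
        (le_of_eq Measure.measure_compl_support))
    have h2 : ν.real (Metric.ball x (r / 4)) ≤
        ν.real ((⋃ z ∈ Z, Metric.ball z (2 * σ)) ∪ μ.supportᶜ) := by
      refine measureReal_mono fun y hy => ?_
      by_cases hyS : y ∈ μ.support
      · refine Or.inl (mem_iUnion₂.2 ?_)
        rcases hZc y ⟨hyS, Metric.ball_subset_closedBall hy⟩ with h | ⟨z, hz, hd⟩
        · exact ⟨y, h, Metric.mem_ball_self (by positivity)⟩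
        · exact ⟨z, hz, Metric.mem_ball.2 hd⟩
      · exact Or.inr hyS
    have h3 : ν.real ((⋃ z ∈ Z, Metric.ball z (2 * σ)) ∪ μ.supportᶜ) ≤
        ∑ _ ∈ Z, C * 2 ^ n * (2 * σ) ^ n := by
      refine (measureReal_union_le _ _).trans ?_
      rw [measureReal_def, measureReal_def, hnull, ENNReal.toReal_zero, add_zero, ← measureReal_def]
      exact (measureReal_biUnion_finset_le _ _).trans
        (Finset.sum_le_sum fun z _ => had.growth hx z (by positivity))
    have h4 := (h1.trans h2).trans h3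
    rw [Finset.sum_const, nsmul_eq_mul] at h4
    rw [Finset.sum_const, nsmul_eq_mul, div_mul_eq_mul_div, div_le_iff₀ (by positivity)]
    refine le_of_eq_of_le ?_ (h4.trans (le_of_eq ?_))
    · rw [div_pow, div_pow, one_pow]; ring
    · rw [mul_pow]; ring
  · have h1 := hcard Z hZS hZp
    rw [Finset.sum_const, nsmul_eq_mul]
    calc (Z.card : ℝ) * σ ^ n = C * (Z.card * (C⁻¹ * σ ^ n)) := by field_simp
      _ ≤ C * (C * r ^ n) := mul_le_mul_of_nonneg_left h1 hC0.le
      _ ≤ C * (C * 2 ^ n * r ^ n) := mul_le_mul_of_nonneg_left (mul_le_mul_of_nonneg_right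
          (le_mul_of_one_le_right hC0.le (one_le_pow₀ one_le_two)) (by positivity)) hC0.le
      _ = _ := by ring

/-- The threshold for the windows. -/
def windowBound (n : ℕ) (C CR : ℝ) : ℝ :=
  2 * ((CR ^ 2 + 1) * (C * 2 ^ n) * 4 ^ n / C⁻¹ + kerConst n * 2 ^ n * (C * 2 ^ n)) + 1

theorem exists_good {C CR θ : ℝ} (hC : 1 ≤ C) (hθ : 0 < θ) :
    ∃ c : ℝ, 0 < c ∧ ∀ x ∈ μ.support, ∀ r : ℝ, LocalAD μ n C r →
      (∀ ε > 0, ∀ S, MeasurableSet S →
        ∫ y, ‖trunc n (μ.restrict (Metric.ball x r)) ε S y‖ ^ 2 ∂(μ.restrict (Metric.ball x r)) ≤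
          CR ^ 2 * (μ.restrict (Metric.ball x r)).real S) →
      ∃ z ∈ μ.support, ∃ s : ℝ, c * r ≤ s ∧ s ≤ r / 4 ∧ Metric.closedBall z s ⊆ Metric.ball x r ∧
        Good n μ z s (windowBound n C CR) θ := by
  classical
  have hC0 : 0 < C := lt_of_lt_of_le one_pos hC
  set K := C * 2 ^ n with hKdef
  have hK : 0 < K := by positivity
  set Bd := (C⁻¹ * (θ / 4) ^ n)⁻¹
  have hBd0 : 0 ≤ Bd := by positivity
  set Q := Bd ^ 2 * K + 32 * Bd / θ * (C * K) with hQdef
  have hQ0 : 0 ≤ Q := by positivity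
  set κ' := C⁻¹ * (1 / 4) ^ n / (K * 2 ^ n) with hκ'
  have hκ'0 : 0 < κ' := by positivity
  set lam := 3 * Q / κ' + 1 with hlam
  have hlam0 : 0 < lam := by positivity
  obtain ⟨M, hM⟩ := exists_nat_gt (lam * (CR ^ 2 * K) / κ')
  refine ⟨1 / 4 * (1 / 2) ^ M, by positivity, fun x hx r had hR => ?_⟩
  by_contra hcon
  simp only [not_exists, not_and] at hcon
  have hr : 0 < r := had.2.1
  set ν := μ.restrict (Metric.ball x r) with hνdef
  haveI : IsFiniteMeasure ν := isFiniteMeasure_restrict.2 (had.ne_top hx hr le_rfl)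
  have hν : ∀ z t, 0 < t → ν.real (Metric.ball z t) ≤ K * t ^ n := fun z t ht => had.growth hx z ht
  have hrn : 0 ≤ r ^ n := by positivity
  have hνu : ν.real univ ≤ K * r ^ n := by
    rw [hνdef, measureReal_restrict_apply MeasurableSet.univ, univ_inter]
    exact (had.real_le hx hr le_rfl).trans (mul_le_mul_of_nonneg_right
      (le_mul_of_one_le_right hC0.le (one_le_pow₀ one_le_two)) hrn)
  set σ : ℕ → ℝ := fun g => r / 4 * (1 / 2) ^ g with hσdef
  have hσ : ∀ g, 0 < σ g := fun g => by positivity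
  have hσle : ∀ g, σ g ≤ r / 4 := fun g =>
    mul_le_of_le_one_right (by positivity) (pow_le_one₀ (by norm_num) (by norm_num))
  have hσM : ∀ g, g < M → r / 4 * (1 / 2 : ℝ) ^ M ≤ σ g := fun g hg => mul_le_mul_of_nonneg_left
    (pow_le_pow_of_le_one (by norm_num) (by norm_num) hg.le) (by positivity)
  choose Z hZS hZp hZlow hZup using fun g => exists_net had hx (hσ g) (hσle g)
  have hbad : ∀ g, g < M → ∀ z ∈ Z g, ∃ z' a b, z' ∈ μ.support ∧ dist z' z ≤ σ g / 2 ∧
      θ * σ g ≤ a ∧ a < b ∧ b ≤ σ g / 4 ∧ windowBound n C CR ≤ ‖win n ν z' a b‖ := by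
    intro g hg z hz
    have hzx := Metric.mem_closedBall.1 (hZS g hz).2
    have hsub : Metric.closedBall z (σ g) ⊆ Metric.ball x r := fun w hw => by
      rw [Metric.mem_closedBall] at hw
      rw [Metric.mem_ball]
      linarith [dist_triangle w z x, hσle g]
    have := hcon z (hZS g hz).1 (σ g) (by linarith [hσM g hg]) (hσle g) hsub
    unfold Good at this
    push Not at this
    obtain ⟨z', hz', hd, a, b, h1, h2, h3, h4⟩ := this
    refine ⟨z', a, b, hz', hd, h1, h2, h3, ?_⟩
    rw [hνdef, win_restrict z' a b (fun w hw => hsub ?_)]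
    · exact h4.le
    · rw [Metric.mem_closedBall] at hw ⊢
      linarith [dist_triangle w z' z, hσ g]
  choose! zc ac bc hzs hzd hac habc hbc hwin using hbad
  have hgen : ∀ g, g < M → GenData n ν C⁻¹ θ (σ g) (Z g) (zc g) (ac g) (bc g) := by
    intro g hg
    refine ⟨hθ, inv_pos.2 hC0, hσ g, hZp g, fun z hz => ⟨hzd g hg z hz, hac g hg z hz,
      habc g hg z hz, hbc g hg z hz, fun t ht htσ => ?_⟩⟩
    rw [hνdef, measureReal_restrict_apply measurableSet_ball, inter_eq_left.2 fun w hw => ?_]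
    · exact had.le_real (hzs g hg z hz) ht (by linarith [hσle g])
    · rw [Metric.mem_ball] at hw ⊢
      linarith [dist_triangle w (zc g z) z, dist_triangle w z x, hzd g hg z hz, hσle g,
        Metric.mem_closedBall.1 (hZS g hz).2, hσ g]
  set G : ℕ → E → E := fun g => gen n ν (σ g) (Z g) (zc g) (ac g) (bc g)
  set ε := θ * (r / 4 * (1 / 2) ^ M) / 4 with hεdef
  have hε : 0 < ε := by positivity
  have hcross : ∀ g, g < M → ∀ h, h < M → g < h →
      |∫ y, ⟪G g y, G h y⟫ ∂ν| ≤ Q * r ^ n * (1 / 2) ^ (h - g) := by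
    intro g hg h hh hgh
    have := hσ g
    have := hσ h
    have hL : 0 ≤ 16 / θ * Bd / σ g := by positivity
    refine ((hgen h hh).abs_integral_inner_le (hgen g hg).continuous_gen (hgen g hg).norm_gen_le
      (hgen g hg).norm_gen_sub_le hL).trans ?_
    refine (mul_le_mul_of_nonneg_right (hZup h) (by positivity)).trans ?_
    have e : σ h = σ g * (1 / 2) ^ (h - g) := by
      simp only [hσdef]
      rw [mul_assoc, ← pow_add, Nat.add_sub_cancel' hgh.le]
    rw [e]
    calc C * K * r ^ n * (2 * (16 / θ * Bd / σ g * (σ g * (1 / 2) ^ (h - g))))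
        = 32 * Bd / θ * (C * K) * r ^ n * (1 / 2) ^ (h - g) := by field_simp; ring
      _ ≤ _ := mul_le_mul_of_nonneg_right (mul_le_mul_of_nonneg_right
          (le_add_of_nonneg_left (by positivity)) hrn) (by positivity)
  have hQb : ∀ g, g < M → ∀ h, h < M →
      ∫ y, ⟪G g y, G h y⟫ ∂ν ≤ Q * r ^ n * (1 / 2) ^ Nat.dist g h := by
    intro g hg h hh
    rcases lt_trichotomy g h with hlt | rfl | hlt
    · rw [Nat.dist_eq_sub_of_le hlt.le]
      exact (le_abs_self _).trans (hcross g hg h hh hlt)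
    · rw [Nat.dist_self, pow_zero, mul_one]
      calc ∫ y, ⟪G g y, G g y⟫ ∂ν ≤ ∫ _, Bd ^ 2 ∂ν := by
            refine integral_mono_of_nonneg (Eventually.of_forall fun y => real_inner_self_nonneg)
              (integrable_const _) (Eventually.of_forall fun y => ?_)
            simp only [real_inner_self_eq_norm_sq]
            exact pow_le_pow_left₀ (norm_nonneg _) ((hgen g hg).norm_gen_le y) 2
        _ = ν.real univ * Bd ^ 2 := by rw [integral_const, smul_eq_mul]
        _ ≤ K * r ^ n * Bd ^ 2 := mul_le_mul_of_nonneg_right hνu (by positivity)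
        _ ≤ _ := by
            rw [show K * r ^ n * Bd ^ 2 = Bd ^ 2 * K * r ^ n by ring]
            exact mul_le_mul_of_nonneg_right (le_add_of_nonneg_right (by positivity)) hrn
    · simp_rw [real_inner_comm (G h _) (G g _)]
      rw [Nat.dist_comm, Nat.dist_eq_sub_of_le hlt.le]
      exact (le_abs_self _).trans (hcross h hh g hg hlt)
  have hGT : ∀ g, g < M → κ' * r ^ n ≤ ∫ y, ⟪G g y, trunc n ν ε univ y⟫ ∂ν := by
    intro g hg
    refine le_trans ?_ ((hgen g hg).le_integral_gen hν hK.le hε (hR ε hε) ?_ (hwin g hg))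
    · refine (hZlow g).trans (le_mul_of_one_le_right
        (Finset.sum_nonneg fun _ _ => by have := hσ g; positivity) ?_)
      rw [windowBound, add_sub_cancel_left]
    · have h1 := mul_le_mul_of_nonneg_left (hσM g hg) hθ.le
      have h2 := mul_pos hθ (hσ g)
      rw [hεdef]
      linarith
  have hmain := card_mul_le_of_almost_orth (ν := ν) (G := G) (M := M) (lam := lam)
    (fun g hg => (hgen g hg).continuous_gen) (fun g hg => (hgen g hg).norm_gen_le)
    (stronglyMeasurable_trunc ε MeasurableSet.univ) (norm_trunc_le hε MeasurableSet.univ)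
    (mul_nonneg hQ0 hrn) hQb hGT
    ((hR ε hε _ MeasurableSet.univ).trans (mul_le_mul_of_nonneg_left hνu (sq_nonneg _))) hlam0
  have h1 : 1 / (2 * lam) * (3 * Q) ≤ κ' / 2 := by
    rw [div_mul_eq_mul_div, one_mul, div_le_iff₀ (by positivity)]
    have : κ' * lam = 3 * Q + κ' := by rw [hlam]; field_simp
    linarith
  have hrn' : 0 < r ^ n := by positivity
  have h3 : 1 / (2 * lam) * (3 * M * (Q * r ^ n)) ≤ κ' / 2 * M * r ^ n := by
    calc 1 / (2 * lam) * (3 * M * (Q * r ^ n)) = 1 / (2 * lam) * (3 * Q) * M * r ^ n := by ring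
      _ ≤ _ := by gcongr
  rw [div_lt_iff₀ hκ'0] at hM
  nlinarith

end

end Vale.Agent.P120
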