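import Vale.Agent.P120.Selection

/-!
# P120: a ball free of the support touching it forces flatness in the normal direction

If the windows at a support point `y0` are bounded and an open ball of radius `ρ` free of the
support touches it at `y0`, then at some scale comparable to `ρ` the support lies near the
hyperplane through `y0` orthogonal to the normal.
-/

namespace Vale.Agent.P120

open MeasureTheory Set Filter
open scoped Topology RealInnerProductSpace

noncomputable section

variable {E : Type*} [NormedAddCommGroup E] [InnerProductSpace ℝ E] [MeasurableSpace E]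
  [BorelSpace E] [FiniteDimensional ℝ E] {n : ℕ} {μ : Measure E}

lemma LocalAD.mono {C R R' : ℝ} (h : LocalAD μ n C R) (h0 : 0 < R') (hle : R' ≤ R) :
    LocalAD μ n C R' :=
  ⟨h.1, h0, fun x hx t ht htR => h.2.2 x hx t ht (htR.trans hle)⟩

lemma ae_mem_support_restrict (μ : Measure E) (U : Set E) :
    ∀ᵐ y ∂μ.restrict U, y ∈ μ.support :=
  mem_ae_iff.2 (nonpos_iff_eq_zero.1 ((Measure.restrict_apply_le _ _).trans
    (le_of_eq Measure.measure_compl_support)))

/-- The nonnegative density at a touching point. -/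
def density (n : ℕ) (y0 e : E) (ρ : ℝ) (y : E) : ℝ :=
  (dist y0 y ^ (n + 1))⁻¹ * ⟪e, y - y0⟫ + (2 * ρ)⁻¹ * (dist y0 y ^ (n - 1))⁻¹

omit [MeasurableSpace E] [BorelSpace E] [FiniteDimensional ℝ E] in
lemma density_nonneg (hn : 1 ≤ n) {y0 e y : E} {ρ : ℝ} (hρ : 0 < ρ)
    (h : -(dist y y0 ^ 2 / (2 * ρ)) ≤ ⟪e, y - y0⟫) : 0 ≤ density n y0 e ρ y := by
  obtain ⟨m, rfl⟩ : ∃ m, n = m + 1 := ⟨n - 1, by omega⟩
  rw [density, Nat.add_sub_cancel, dist_comm y0 y]
  rcases eq_or_ne (dist y y0) 0 with h0 | h0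
  · have hy : y = y0 := dist_eq_zero.1 h0
    rw [h0] at h
    subst hy
    simp only [sub_self, inner_zero_right, mul_zero, zero_add, dist_self] at h ⊢
    positivity
  · have hm : 0 ≤ (dist y y0 ^ (m + 1 + 1))⁻¹ := by positivity
    refine le_trans (le_of_eq ?_) (add_le_add_left (mul_le_mul_of_nonneg_left h hm) _)
    field_simp
    ring

/-- Flatness in the normal direction at a touching point. -/
theorem exists_flat_normal_unif (hn : 1 ≤ n) {C A δ : ℝ} (hC : 1 ≤ C) (hA : 0 ≤ A) (hδ : 0 < δ)
    (hδ1 : δ ≤ 1) :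
    ∃ c : ℝ, 0 < c ∧ c ≤ 1 ∧ ∀ μ : Measure E, ∀ y0 ∈ μ.support, ∀ (e : E) (ρ : ℝ), ‖e‖ = 1 →
      LocalAD μ n C ρ →
      (∀ y ∈ μ.support, -(dist y y0 ^ 2 / (2 * ρ)) ≤ ⟪e, y - y0⟫) →
      (∀ a b, c * ρ ≤ a → a < b → b ≤ ρ → ‖win n μ y0 a b‖ ≤ A) →
      ∃ t, c * ρ ≤ t ∧ t ≤ ρ ∧ ∀ y ∈ μ.support, dist y y0 ≤ t → |⟪e, y - y0⟫| ≤ δ * t := by
  have hC0 : 0 < C := lt_of_lt_of_le one_pos hC
  set κ := 3 * δ / 8 * (C⁻¹ * (δ / 8) ^ n) with hκ
  have hκ0 : 0 < κ := by positivity
  set A1 := A + 2 ^ n * (C * 2 ^ n) with hA1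
  obtain ⟨N, hN⟩ := exists_nat_gt (A1 / κ)
  set lam := δ / 8 with hlamdef
  have hlam0 : 0 < lam := by positivity
  have hlam1 : lam < 1 := by rw [hlamdef]; linarith
  refine ⟨δ / 4 * lam ^ N, by positivity, ?_, fun μ y0 hy0 e ρ he had htouch hwin => ?_⟩
  · exact mul_le_one₀ (by linarith) (by positivity) (pow_le_one₀ hlam0.le hlam1.le)
  have hρ : 0 < ρ := had.2.1
  by_contra hcon
  simp only [not_exists, not_and, not_forall, not_le] at hcon
  set b0 := δ * ρ / 2 with hb0
  have hb00 : 0 < b0 := by positivity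
  have hb0ρ : b0 ≤ ρ / 2 := by rw [hb0]; nlinarith
  set ts : ℕ → ℝ := fun j => b0 * lam ^ j with hts
  have hts0 : ∀ j, 0 < ts j := fun j => by positivity
  have htsb : ∀ j, ts j ≤ b0 := fun j =>
    mul_le_of_le_one_right hb00.le (pow_le_one₀ hlam0.le hlam1.le)
  set ν := μ.restrict (Metric.ball y0 ρ) with hνdef
  haveI : IsFiniteMeasure ν := isFiniteMeasure_restrict.2 (had.ne_top hy0 hρ le_rfl)
  set f := density n y0 e ρ with hf
  have hker : ∀ y, (dist y0 y ^ (n + 1))⁻¹ * ⟪e, y - y0⟫ = -⟪e, kernel n (y0 - y)⟫ := fun y => by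
    rw [kernel, real_inner_smul_right, dist_eq_norm, ← neg_sub y0 y, inner_neg_right, mul_neg]
  have hi1 : ∀ a b, 0 < a →
      IntegrableOn (fun y => -⟪e, kernel n (y0 - y)⟫) (annulus y0 a b) ν := fun a b ha =>
    ((integrableOn_kernel y0 ha (measurableSet_annulus y0 a b) fun y hy => hy.1).const_inner
      (𝕜 := ℝ) e).neg
  have hi2 : ∀ a b, 0 < a →
      IntegrableOn (fun y => (2 * ρ)⁻¹ * (dist y0 y ^ (n - 1))⁻¹) (annulus y0 a b) ν :=
    fun a b ha => (integrableOn_inv_pow y0 ha _ (measurableSet_annulus y0 a b)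
      fun y hy => hy.1).const_mul _
  have hi : ∀ a b, 0 < a → IntegrableOn f (annulus y0 a b) ν := by
    intro a b ha
    refine ((hi1 a b ha).add (hi2 a b ha)).congr (Eventually.of_forall fun y => ?_)
    simp only [hf, density, hker, Pi.add_apply]
  have hpos : ∀ᵐ y ∂ν, 0 ≤ f y := (ae_mem_support_restrict μ _).mono fun y hy =>
    density_nonneg hn hρ (htouch y hy)
  -- the upper bound
  have hupper : ∀ j, j ≤ N → ∫ y in annulus y0 (ts j) b0, f y ∂ν ≤ A1 := by
    intro j hj
    simp only [hf, density, hker]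
    rw [integral_add (hi1 _ _ (hts0 j)) (hi2 _ _ (hts0 j)), integral_neg, integral_const_mul,
      integral_inner (integrableOn_kernel y0 (hts0 j) (measurableSet_annulus y0 (ts j) b0)
        fun y hy => hy.1) e]
    refine add_le_add ?_ ?_
    · rcases (htsb j).lt_or_eq with hlt | heq
      · rw [← win, hνdef, win_restrict y0 _ _ (Metric.closedBall_subset_ball (by linarith))]
        refine (neg_le_abs _).trans ((abs_real_inner_le_norm _ _).trans ?_)
        rw [he, one_mul]
        refine hwin _ _ ?_ hlt (by linarith)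
        calc δ / 4 * lam ^ N * ρ ≤ δ * ρ / 2 * lam ^ N := by nlinarith [pow_pos hlam0 N, mul_pos hδ hρ]
          _ ≤ ts j := mul_le_mul_of_nonneg_left
              (pow_le_pow_of_le_one hlam0.le hlam1.le hj) hb00.le
      · have : annulus y0 (ts j) b0 = ∅ := by
          ext y; simp only [annulus, mem_setOf_eq, mem_empty_iff_false, iff_false, not_and]
          intro h; linarith
        rw [this, setIntegral_empty, inner_zero_right, neg_zero]
        exact hA
    · refine (mul_le_mul_of_nonneg_left (inner_integral_le hn (fun z t ht => had.growth hy0 z ht)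
        (by positivity) y0 (hts0 j) hb00) (by positivity)).trans ?_
      calc (2 * ρ)⁻¹ * (2 ^ n * (C * 2 ^ n) * b0) = δ / 4 * (2 ^ n * (C * 2 ^ n)) := by
            rw [hb0]; field_simp; ring
        _ ≤ _ := mul_le_of_le_one_left (by positivity) (by linarith)
  -- the lower bound in each window
  have hlow : ∀ j, j < N → κ ≤ ∫ y in annulus y0 (ts (j + 1)) (ts j), f y ∂ν := by
    intro j hj
    set t := ts j with htdef
    have ht : 0 < t := hts0 j
    have htb : t ≤ δ * ρ / 2 := htsb j
    obtain ⟨y, hyS, hyd, hbig⟩ := hcon (t / 2) (by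
      calc δ / 4 * lam ^ N * ρ = δ * ρ / 2 * lam ^ N / 2 := by ring
        _ ≤ t / 2 := div_le_div_of_nonneg_right (mul_le_mul_of_nonneg_left
            (pow_le_pow_of_le_one hlam0.le hlam1.le hj.le) hb00.le) (by norm_num))
      (by linarith)
    have hpy : δ * (t / 2) < ⟪e, y - y0⟫ := by
      rcases lt_abs.1 hbig with h | h
      · exact h
      · exfalso
        have h1 := htouch y hyS
        have h2 : dist y y0 ^ 2 / (2 * ρ) ≤ δ * (t / 2) := by
          rw [div_le_iff₀ (by positivity)]
          nlinarith [pow_le_pow_left₀ dist_nonneg hyd 2, mul_pos hδ hρ]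
        linarith
    have hsub : ∀ w ∈ Metric.ball y (δ * t / 8), 3 * δ * t / 8 ≤ ⟪e, w - y0⟫ ∧
        w ∈ annulus y0 (lam * t) t := by
      intro w hw
      rw [Metric.mem_ball] at hw
      have h1 : |⟪e, w - y⟫| ≤ δ * t / 8 := by
        refine (abs_real_inner_le_norm _ _).trans ?_
        rw [he, one_mul, ← dist_eq_norm]
        exact hw.le
      have h2 : ⟪e, w - y0⟫ = ⟪e, w - y⟫ + ⟪e, y - y0⟫ := by
        rw [← inner_add_right, sub_add_sub_cancel]
      have h3 : 3 * δ * t / 8 ≤ ⟪e, w - y0⟫ := by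
        linarith [(abs_le.1 h1).1]
      refine ⟨h3, ?_, ?_⟩
      · have h4 : ⟪e, w - y0⟫ ≤ dist y0 w := by
          refine (le_abs_self _).trans ((abs_real_inner_le_norm _ _).trans ?_)
          rw [he, one_mul, dist_comm, dist_eq_norm]
        rw [hlamdef]
        nlinarith
      · rw [dist_comm]
        nlinarith [dist_triangle w y y0]
    have hts1 : ts (j + 1) = lam * t := by simp only [htdef, hts, pow_succ]; ring
    rw [hts1]
    clear_value t
    have hmass : C⁻¹ * (δ * t / 8) ^ n ≤ ν.real (Metric.ball y (δ * t / 8)) := by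
      rw [hνdef, measureReal_restrict_apply measurableSet_ball, inter_eq_left.2 fun w hw => ?_]
      · exact had.le_real hyS (by positivity) (by nlinarith)
      · have := (hsub w hw).2.2
        rw [Metric.mem_ball, dist_comm]
        nlinarith
    calc κ = 3 * δ / 8 * (t ^ n)⁻¹ * (C⁻¹ * (δ * t / 8) ^ n) := by
          rw [hκ, show δ * t / 8 = lam * t by rw [hlamdef]; ring, mul_pow]; field_simp
      _ ≤ 3 * δ / 8 * (t ^ n)⁻¹ * ν.real (Metric.ball y (δ * t / 8)) :=
          mul_le_mul_of_nonneg_left hmass (by positivity)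
      _ = ∫ _ in Metric.ball y (δ * t / 8), 3 * δ / 8 * (t ^ n)⁻¹ ∂ν := by
          rw [setIntegral_const, smul_eq_mul, mul_comm]
      _ ≤ ∫ w in Metric.ball y (δ * t / 8), f w ∂ν := by
          refine setIntegral_mono_on (integrable_const _).integrableOn
            ((hi _ t (by positivity)).mono_set fun w hw => (hsub w hw).2) measurableSet_ball
            fun w hw => ?_
          obtain ⟨h3, h4, h5⟩ := hsub w hw
          have hd : 0 < dist y0 w := lt_of_lt_of_le (by positivity) h4
          refine le_trans ?_ (le_add_of_nonneg_right (by positivity))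
          calc 3 * δ / 8 * (t ^ n)⁻¹ = (t ^ (n + 1))⁻¹ * (3 * δ * t / 8) := by
                rw [pow_succ]; field_simp
            _ ≤ _ := mul_le_mul (inv_anti₀ (by positivity) (pow_le_pow_left₀ hd.le h5.le _)) h3
                (by positivity) (by positivity)
      _ ≤ _ := setIntegral_mono_set (hi _ _ (by positivity)) (ae_restrict_of_ae hpos)
          (show Metric.ball y (δ * t / 8) ⊆ annulus y0 (lam * t) t from
            fun w hw => (hsub w hw).2).eventuallyLE
  have hsum : ∀ j, j ≤ N → (j : ℝ) * κ ≤ ∫ y in annulus y0 (ts j) b0, f y ∂ν := by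
    intro j
    induction j with
    | zero =>
      intro _
      rw [Nat.cast_zero, zero_mul]
      exact setIntegral_nonneg_of_ae hpos
    | succ j ih =>
      intro hj
      have hle : ts (j + 1) ≤ ts j := mul_le_mul_of_nonneg_left
        (pow_le_pow_of_le_one hlam0.le hlam1.le (Nat.le_succ j)) hb00.le
      have hu : annulus y0 (ts (j + 1)) b0 =
          annulus y0 (ts (j + 1)) (ts j) ∪ annulus y0 (ts j) b0 := by
        ext y
        simp only [annulus, mem_union, mem_setOf_eq]
        constructor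
        · rintro ⟨h1, h2⟩
          by_cases h' : dist y0 y < ts j
          · exact Or.inl ⟨h1, h'⟩
          · exact Or.inr ⟨not_lt.1 h', h2⟩
        · rintro (⟨h1, h2⟩ | ⟨h1, h2⟩)
          · exact ⟨h1, h2.trans_le (htsb j)⟩
          · exact ⟨hle.trans h1, h2⟩
      have hdis : Disjoint (annulus y0 (ts (j + 1)) (ts j)) (annulus y0 (ts j) b0) :=
        Set.disjoint_left.2 fun y h1 h2 => absurd h2.1 (not_le.2 h1.2)
      rw [hu, setIntegral_union hdis (measurableSet_annulus _ _ _) (hi _ _ (hts0 _))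
        (hi _ _ (hts0 _)), Nat.cast_succ, add_mul, one_mul, add_comm]
      exact add_le_add (hlow j (by omega)) (ih (by omega))
  have := (hsum N le_rfl).trans (hupper N le_rfl)
  rw [div_lt_iff₀ hκ0] at hN
  linarith

end

end Vale.Agent.P120
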